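import Claimed.Agent.R285.Bc.Bes

set_option autoImplicit false

/-!
# ROW 285, layer Bc, summability of anchored height laws

`bc1_summable`: (i) `D : h ↦ (∇_e h)_e` is injective on `G.Conf P` when `Anchored G P` (the set `{v | h v = h' v}` contains `P` and is closed under bonds);
(ii) the same for real heights, so the real linear map `D` on `{g : V → ℝ | g = 0 on P}` is injective, hence antilipschitz (`LinearMap.exists_antilipschitzWith`, finite dimension):
`|∑ t_v h_v| ≤ C ∑_e |∇_e h|`, so `1 + X² ≤ C' ∏_e exp |∇_e h|`;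
(iii) `k ↦ ∏_e f(k_e)` is summable on `E → ℤ` for `f ≥ 0` summable (`summable_of_sum_le`, `Fintype.piFinset`, `Finset.prod_univ_sum`); (iv) `Summable.comp_injective` + comparison.
-/


namespace Claimed.Agent.R285.BC1

noncomputable section

/-- products of summable nonnegative functions are summable on a finite power. -/
theorem bc1_summable_pi {E : Type} [Fintype E] (f : ℤ → ℝ) (h0 : ∀ k, 0 ≤ f k) (hf : Summable f) :
    Summable fun k : E → ℤ => ∏ e, f (k e) := by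
  classical
  refine summable_of_sum_le (c := ∏ _e : E, ∑' x, f x) (fun k => Finset.prod_nonneg fun e _ => h0 _) fun u => ?_
  have hsub : u ⊆ Fintype.piFinset (fun e : E => u.image (fun k => k e)) := by
    intro k hk
    rw [Fintype.mem_piFinset]
    intro e
    exact Finset.mem_image_of_mem _ hk
  calc ∑ k ∈ u, ∏ e, f (k e) ≤ ∑ k ∈ Fintype.piFinset (fun e : E => u.image (fun k => k e)), ∏ e, f (k e) :=
        Finset.sum_le_sum_of_subset_of_nonneg hsub fun k _ _ => Finset.prod_nonneg fun e _ => h0 _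
    _ = ∏ e : E, ∑ x ∈ u.image (fun k => k e), f x := (Finset.prod_univ_sum _ _).symm
    _ ≤ ∏ _e : E, ∑' x, f x :=
        Finset.prod_le_prod (fun e _ => Finset.sum_nonneg fun x _ => h0 x) fun e _ => hf.sum_le_tsum _ fun x _ => h0 x

/-- exponential moments of the Bessel weight. -/
theorem bc1_bes_moments (b : ℝ) (hb : 0 < b) (c : ℝ) :
    Summable fun k : ℤ => Real.exp (c * |(k : ℝ)|) * bes b k := by
  have h1 := bes_summable_exp b hb.le c
  have h2 := bes_summable_exp b hb.le (-c)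
  refine Summable.of_nonneg_of_le (fun k => mul_nonneg (Real.exp_pos _).le (bes_pos b hb k).le) (fun k => ?_) (h1.add h2)
  have hp := (bes_pos b hb k).le
  have : Real.exp (c * |(k : ℝ)|) ≤ Real.exp (c * k) + Real.exp (-c * k) := by
    rcases abs_cases (k : ℝ) with ⟨h, _⟩ | ⟨h, _⟩
    · rw [h]; linarith [Real.exp_pos (-c * k)]
    · rw [h, mul_neg, ← neg_mul]; linarith [Real.exp_pos (c * k)]
  calc _ ≤ (Real.exp (c * k) + Real.exp (-c * k)) * bes b k := mul_le_mul_of_nonneg_right this hp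
    _ = _ := by ring

/-- exponential moments of the discrete Gaussian weight. -/
theorem bc1_dg_moments (κ : ℝ) (hκ : 0 < κ) (c : ℝ) :
    Summable fun k : ℤ => Real.exp (c * |(k : ℝ)|) * dg κ k := by
  have h := summable_pow_mul_jacobiTheta₂_term_bound (c / (2 * Real.pi)) (T := κ / (2 * Real.pi)) (by positivity) 0
  refine h.congr fun m => ?_
  rw [pow_zero, one_mul, dg, ← Real.exp_add, Int.cast_abs]
  congr 1
  field_simp
  ring

open Classical in
/-- the real gradient-and-pins map. -/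
def gradPin (G : HGraph) (P : Set G.V) : (G.V → ℝ) →ₗ[ℝ] (G.E → ℝ) × (G.V → ℝ) where
  toFun g := (fun e => g (G.tgt e) - g (G.src e), fun v => if v ∈ P then g v else 0)
  map_add' g g' := by
    ext x
    · simp; ring
    · by_cases h : x ∈ P <;> simp [h]
  map_smul' c g := by
    ext x
    · simp; ring
    · by_cases h : x ∈ P <;> simp [h]

theorem bc1_gradPin_ker (G : HGraph) (P : Set G.V) (hA : Anchored G P) : LinearMap.ker (gradPin G P) = ⊥ := by
  rw [LinearMap.ker_eq_bot']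
  intro g hg
  have h1 : ∀ e, g (G.tgt e) - g (G.src e) = 0 := fun e => congrFun (congrArg Prod.fst hg) e
  have h2 : ∀ v ∈ P, g v = 0 := by
    intro v hv
    have := congrFun (congrArg Prod.snd hg) v
    simpa [gradPin, hv] using this
  have := hA {v | g v = 0} h2 (fun e => by
    have := h1 e
    simp only [Set.mem_ofPred_eq]
    constructor <;> intro h <;> linarith)
  funext v
  have hv : v ∈ {v | g v = 0} := by rw [this]; trivial
  exact hv

/-- the integer gradient. -/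
def gradZ (G : HGraph) (P : Set G.V) (h : G.Conf P) : G.E → ℤ := fun e => h.1 (G.tgt e) - h.1 (G.src e)

theorem bc1_gradZ_injective (G : HGraph) (P : Set G.V) (hA : Anchored G P) : Function.Injective (gradZ G P) := by
  intro h h' hh
  have h1 : ∀ e, h.1 (G.tgt e) - h.1 (G.src e) = h'.1 (G.tgt e) - h'.1 (G.src e) := fun e => congrFun hh e
  have := hA {v | h.1 v = h'.1 v} (fun v hv => by
    show h.1 v = h'.1 v
    rw [h.2 v hv, h'.2 v hv]) (fun e => by
    have := h1 e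
    simp only [Set.mem_ofPred_eq]
    constructor <;> intro h <;> omega)
  refine Subtype.ext (funext fun v => ?_)
  have hv : v ∈ {v | h.1 v = h'.1 v} := by rw [this]; trivial
  exact hv

/-- heights are controlled by the gradient. -/
theorem bc1_height_le (G : HGraph) (P : Set G.V) (hA : Anchored G P) :
    ∃ K : ℝ, 0 ≤ K ∧ ∀ (h : G.Conf P) (v : G.V), |(h.1 v : ℝ)| ≤ K * ∑ e, |(gradZ G P h e : ℝ)| := by
  obtain ⟨K, _, hK⟩ := (gradPin G P).exists_antilipschitzWith (bc1_gradPin_ker G P hA)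
  refine ⟨K, K.2, fun h v => ?_⟩
  set g : G.V → ℝ := fun v => (h.1 v : ℝ) with hg
  have h1 := hK.le_mul_dist g 0
  rw [map_zero, dist_zero_right, dist_zero_right] at h1
  have h2 : gradPin G P g = (fun e => (gradZ G P h e : ℝ), 0) := by
    ext x
    · simp [gradPin, gradZ, hg]
    · by_cases hx : x ∈ P
      · simp [gradPin, hx, hg, h.2 x hx]
      · simp [gradPin, hx]
  have h3 : ‖gradPin G P g‖ ≤ ∑ e, |(gradZ G P h e : ℝ)| := by
    rw [h2, Prod.norm_def, norm_zero, max_le_iff]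
    refine ⟨?_, Finset.sum_nonneg fun e _ => abs_nonneg _⟩
    rw [pi_norm_le_iff_of_nonneg (Finset.sum_nonneg fun e _ => abs_nonneg _)]
    intro e
    rw [Real.norm_eq_abs]
    exact Finset.single_le_sum (f := fun e => |(gradZ G P h e : ℝ)|) (fun e _ => abs_nonneg _) (Finset.mem_univ e)
  calc |(h.1 v : ℝ)| = ‖g v‖ := rfl
    _ ≤ ‖g‖ := norm_le_pi_norm g v
    _ ≤ K * ‖gradPin G P g‖ := h1
    _ ≤ K * ∑ e, |(gradZ G P h e : ℝ)| := mul_le_mul_of_nonneg_left h3 K.2

/-- summability for weights with all exponential moments. -/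
theorem bc1_summable (W : ℤ → ℝ) (h0 : ∀ k, 0 ≤ W k)
    (hW : ∀ c : ℝ, Summable fun k : ℤ => Real.exp (c * |(k : ℝ)|) * W k)
    (G : HGraph) (P : Set G.V) (hA : Anchored G P) (t : G.V → ℝ) :
    Summable fun h : G.Conf P => (1 + (∑ v, t v * (h.1 v : ℝ)) ^ 2) * wtW G W h.1 := by
  obtain ⟨K, hK0, hK⟩ := bc1_height_le G P hA
  set A : ℝ := (∑ v, |t v|) * K with hAdef
  have hA0 : 0 ≤ A := mul_nonneg (Finset.sum_nonneg fun v _ => abs_nonneg _) hK0
  set f : ℤ → ℝ := fun k => Real.exp (1 * |(k : ℝ)|) * W k with hf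
  have s1 : Summable fun k : G.E → ℤ => ∏ e, f (k e) :=
    bc1_summable_pi f (fun k => mul_nonneg (Real.exp_pos _).le (h0 k)) (hW 1)
  have s2 : Summable fun h : G.Conf P => ∏ e, f (gradZ G P h e) := s1.comp_injective (bc1_gradZ_injective G P hA)
  have w0 : ∀ h : G.Conf P, 0 ≤ wtW G W h.1 := fun h => Finset.prod_nonneg fun e _ => h0 _
  refine Summable.of_nonneg_of_le (fun h => mul_nonneg (by positivity) (w0 h)) (fun h => ?_) (s2.mul_left (1 + 2 * A ^ 2))
  set N : ℝ := ∑ e, |(gradZ G P h e : ℝ)| with hN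
  have hN0 : 0 ≤ N := Finset.sum_nonneg fun e _ => abs_nonneg _
  have hX : |∑ v, t v * (h.1 v : ℝ)| ≤ A * N := by
    calc |∑ v, t v * (h.1 v : ℝ)| ≤ ∑ v, |t v * (h.1 v : ℝ)| := Finset.abs_sum_le_sum_abs _ _
      _ ≤ ∑ v, |t v| * (K * N) := Finset.sum_le_sum fun v _ => by
          rw [abs_mul]; exact mul_le_mul_of_nonneg_left (hK h v) (abs_nonneg _)
      _ = A * N := by rw [← Finset.sum_mul, hAdef]; ring
  have hX2 : (∑ v, t v * (h.1 v : ℝ)) ^ 2 ≤ (A * N) ^ 2 := by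
    rw [← sq_abs]; exact pow_le_pow_left₀ (abs_nonneg _) hX 2
  have hexp : 1 + N + N ^ 2 / 2 ≤ Real.exp N := Real.quadratic_le_exp_of_nonneg hN0
  have hb : 1 + (∑ v, t v * (h.1 v : ℝ)) ^ 2 ≤ (1 + 2 * A ^ 2) * Real.exp N := by
    have : 1 + (A * N) ^ 2 ≤ (1 + 2 * A ^ 2) * (1 + N + N ^ 2 / 2) := by
      nlinarith [mul_nonneg (sq_nonneg A) hN0, sq_nonneg N, sq_nonneg A, sq_nonneg (A * N)]
    calc _ ≤ 1 + (A * N) ^ 2 := by linarith
      _ ≤ _ := this
      _ ≤ _ := mul_le_mul_of_nonneg_left hexp (by positivity)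
  have hprod : ∏ e, f (gradZ G P h e) = Real.exp N * wtW G W h.1 := by
    rw [hN, Real.exp_sum, wtW, ← Finset.prod_mul_distrib]
    refine Finset.prod_congr rfl fun e _ => ?_
    simp only [hf, one_mul]
    rfl
  rw [hprod, ← mul_assoc]
  exact mul_le_mul_of_nonneg_right hb (w0 h)


theorem bc1_summ_eqns_cite : True := by
  have := @gradPin.eq_1
  have := @gradZ.eq_1
  trivial

end

end Claimed.Agent.R285.BC1

/-!
# ROW 285, layer Bc: the torus is anchored at the origin (owner helper172)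
-/


namespace Claimed.Agent.R285.BC1

theorem bc1_torus_anchored (n : ℕ) [NeZero n] : Anchored (torus n) {((0 : ZMod n), (0 : ZMod n))} := by
  intro S hS hE
  have h0 : ((0 : ZMod n), (0 : ZMod n)) ∈ S := hS rfl
  have h1 : ∀ k : ℕ, (((k : ZMod n), (0 : ZMod n)) : ZMod n × ZMod n) ∈ S := by
    intro k
    induction k with
    | zero => simpa using h0
    | succ k ih =>
      have := (hE ((((k : ZMod n), (0 : ZMod n)), true) : (ZMod n × ZMod n) × Bool)).1 ih
      simpa [torus] using this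
  have h2 : ∀ k l : ℕ, (((k : ZMod n), (l : ZMod n)) : ZMod n × ZMod n) ∈ S := by
    intro k l
    induction l with
    | zero => simpa using h1 k
    | succ l ih =>
      have := (hE ((((k : ZMod n), (l : ZMod n)), false) : (ZMod n × ZMod n) × Bool)).1 ih
      simpa [torus] using this
  refine Set.eq_univ_of_forall fun v => ?_
  obtain ⟨x, y⟩ := (v : ZMod n × ZMod n)
  have := h2 x.val y.val
  rwa [ZMod.natCast_zmod_val, ZMod.natCast_zmod_val] at this

end Claimed.Agent.R285.BC1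

/-!
# ROW 285, layer Bc: the PSD comparison theorem (owner helper172)

`mixK W₁ W₂` PSD  ⟹  `E_{W₂} X² ≤ E_{W₁} X²` for every finite graph, every set of pins, every real linear test `X`.
Ginibre / RSD duplication, all bonds at once:
`Z₁(X²) Z₂(1) - Z₂(X²) Z₁(1) = ∑_{h,h'} (X(h)² - X(h')²) ∏_e W₁(∇_e h) W₂(∇_e h') = ∑_{a,d} dblK(a,d)`, `a = h + h'`, `d = h - h'`,
and `dblK` is a Hadamard product of PSD kernels (`Matrix.PosSemidef.hadamard`).
-/


namespace Claimed.Agent.R285.BC1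

open Filter Topology Matrix

noncomputable section


/-- rank one kernels. -/
theorem bc1_psd_rank_one {α : Type*} (f : α → ℝ) : (Matrix.of fun a d => f a * f d).PosSemidef := by
  refine ⟨?_, fun x => ?_⟩
  · ext a d; simp [Matrix.conjTranspose_apply, mul_comm]
  · have : (x.sum fun i xi => x.sum fun j xj => star xi * (Matrix.of fun a d => f a * f d) i j * xj)
        = (x.sum fun i xi => xi * f i) ^ 2 := by
      simp only [Finsupp.sum, Matrix.of_apply, star_trivial, sq, Finset.sum_mul_sum]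
      refine Finset.sum_congr rfl fun i _ => Finset.sum_congr rfl fun j _ => by ring
    rw [this]; positivity

/-- sums of a PSD kernel over `F × F`. -/
theorem bc1_psd_sum_nonneg {α : Type*} (M : Matrix α α ℝ) (hM : M.PosSemidef) (F : Finset α) :
    0 ≤ ∑ a ∈ F, ∑ d ∈ F, M a d := by
  classical
  have h := (hM.submatrix (Subtype.val : F → α)).dotProduct_mulVec_nonneg (fun _ => 1)
  simp only [dotProduct, mulVec, Matrix.submatrix_apply, Pi.star_apply, star_trivial, one_mul, mul_one] at h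
  rw [← Finset.sum_coe_sort F]
  refine h.trans_eq (Finset.sum_congr rfl fun a _ => ?_)
  rw [← Finset.sum_coe_sort F]

/-- finite Hadamard products. -/
theorem bc1_psd_prod {α ι : Type*} (s : Finset ι) (M : ι → Matrix α α ℝ) (hM : ∀ i ∈ s, (M i).PosSemidef) :
    (Matrix.of fun a d => ∏ i ∈ s, M i a d).PosSemidef := by
  classical
  induction s using Finset.induction_on with
  | empty =>
    have := bc1_psd_rank_one (fun _ : α => (1 : ℝ))
    simpa using this
  | insert i s hi ih =>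
    have h1 := hM i (Finset.mem_insert_self _ _)
    have h2 := ih fun j hj => hM j (Finset.mem_insert_of_mem hj)
    have h3 := h1.hadamard h2
    have e : (Matrix.of fun a d => ∏ j ∈ insert i s, M j a d) = M i ⊙ Matrix.of fun a d => ∏ j ∈ s, M j a d := by
      ext a d
      simp [Finset.prod_insert hi, Matrix.hadamard_apply]
    rw [e]; exact h3

/-- from `PSDZ` to `Matrix.PosSemidef`. -/
theorem bc1_psd_of_PSDZ (K : ℤ → ℤ → ℝ) (hs : ∀ x y, K x y = K y x) (hK : PSDZ K) : (Matrix.of K).PosSemidef := by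
  refine ⟨?_, fun x => ?_⟩
  · ext a d; simp [Matrix.conjTranspose_apply, hs a d]
  · have := hK x.support x
    simp only [Finsupp.sum, Matrix.of_apply, star_trivial]
    refine this.trans_eq (Finset.sum_congr rfl fun i _ => Finset.sum_congr rfl fun j _ => by ring)

/-- the parity kernel. -/
def parK (x y : ℤ) : ℝ := if (x - y) % 2 = 0 then 1 else 0

theorem bc1_psd_parK : (Matrix.of parK).PosSemidef := by
  have h0 := bc1_psd_rank_one (fun x : ℤ => if x % 2 = 0 then (1 : ℝ) else 0)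
  have h1 := bc1_psd_rank_one (fun x : ℤ => if x % 2 = 1 then (1 : ℝ) else 0)
  have h2 := h0.add h1
  have e : Matrix.of parK = (Matrix.of fun a d : ℤ => (if a % 2 = 0 then (1 : ℝ) else 0) * (if d % 2 = 0 then (1 : ℝ) else 0))
      + Matrix.of fun a d : ℤ => (if a % 2 = 1 then (1 : ℝ) else 0) * (if d % 2 = 1 then (1 : ℝ) else 0) := ?_
  · rw [e]; exact h2
  ext x y
  simp only [Matrix.of_apply, Matrix.add_apply, parK]
  rcases Int.emod_two_eq_zero_or_one x with hx | hx <;> rcases Int.emod_two_eq_zero_or_one y with hy | hy <;>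
    · have : (x - y) % 2 = 0 ∨ (x - y) % 2 = 1 := Int.emod_two_eq_zero_or_one _
      simp [hx, hy]
      omega

theorem bc1_mixK_symm (W₁ W₂ : ℤ → ℝ) (e₂ : ∀ k, W₂ (-k) = W₂ k) (x y : ℤ) : mixK W₁ W₂ x y = mixK W₁ W₂ y x := by
  unfold mixK
  have h1 : (y - x) % 2 = 0 ↔ (x - y) % 2 = 0 := by omega
  by_cases h : (x - y) % 2 = 0
  · rw [if_pos h, if_pos (h1.2 h), add_comm y x]
    have : (y - x) / 2 = -((x - y) / 2) := by omega
    rw [this, e₂]
  · rw [if_neg h, if_neg (fun h' => h (h1.1 h'))]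

/-- the linear test in integer units. -/
def linX {V : Type} [Fintype V] (t : V → ℝ) (h : V → ℤ) : ℝ := ∑ v, t v * (h v : ℝ)

/-- the doubled kernel. -/
def dblK (G : HGraph) (P : Set G.V) (W₁ W₂ : ℤ → ℝ) (t : G.V → ℝ) (a d : G.Conf P) : ℝ :=
  linX t a.1 * linX t d.1 * (∏ v, parK (a.1 v) (d.1 v)) *
    ∏ e, mixK W₁ W₂ (a.1 (G.tgt e) - a.1 (G.src e)) (d.1 (G.tgt e) - d.1 (G.src e))

theorem bc1_dblK_psd (G : HGraph) (P : Set G.V) (W₁ W₂ : ℤ → ℝ) (e₂ : ∀ k, W₂ (-k) = W₂ k)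
    (hK : PSDZ (mixK W₁ W₂)) (t : G.V → ℝ) : (Matrix.of (dblK G P W₁ W₂ t)).PosSemidef := by
  have h1 := bc1_psd_rank_one (fun a : G.Conf P => linX t a.1)
  have h2 := bc1_psd_prod (α := G.Conf P) Finset.univ
    (fun v : G.V => (Matrix.of parK).submatrix (fun a : G.Conf P => a.1 v) (fun a : G.Conf P => a.1 v))
    (fun v _ => bc1_psd_parK.submatrix _)
  have h3 := bc1_psd_prod (α := G.Conf P) Finset.univ
    (fun e : G.E => (Matrix.of (mixK W₁ W₂)).submatrix (fun a : G.Conf P => a.1 (G.tgt e) - a.1 (G.src e))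
      (fun a : G.Conf P => a.1 (G.tgt e) - a.1 (G.src e)))
    (fun e _ => (bc1_psd_of_PSDZ _ (bc1_mixK_symm W₁ W₂ e₂) hK).submatrix _)
  have h4 := (h1.hadamard h2).hadamard h3
  refine (congrArg Matrix.PosSemidef ?_).mp h4
  ext a d
  simp [dblK, Matrix.hadamard_apply]

/-- sum and difference of two configurations. -/
def cAdd {G : HGraph} {P : Set G.V} (h h' : G.Conf P) : G.Conf P :=
  Subtype.mk (fun v => h.1 v + h'.1 v) (fun v hv => by simp [h.2 v hv, h'.2 v hv])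

def cSub {G : HGraph} {P : Set G.V} (h h' : G.Conf P) : G.Conf P :=
  Subtype.mk (fun v => h.1 v - h'.1 v) (fun v hv => by simp [h.2 v hv, h'.2 v hv])

def cRot {G : HGraph} {P : Set G.V} (p : G.Conf P × G.Conf P) : G.Conf P × G.Conf P := (cAdd p.1 p.2, cSub p.1 p.2)

theorem bc1_cRot_injective {G : HGraph} {P : Set G.V} : Function.Injective (cRot (G := G) (P := P)) := by
  rintro ⟨h, h'⟩ ⟨k, k'⟩ hh
  simp only [cRot, Prod.mk.injEq] at hh
  obtain ⟨h1, h2⟩ := hh
  have a1 : ∀ v, h.1 v + h'.1 v = k.1 v + k'.1 v := fun v => congrFun (congrArg Subtype.val h1) v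
  have a2 : ∀ v, h.1 v - h'.1 v = k.1 v - k'.1 v := fun v => congrFun (congrArg Subtype.val h2) v
  refine Prod.ext (Subtype.ext (funext fun v => ?_)) (Subtype.ext (funext fun v => ?_))
  · have := a1 v; have := a2 v; show h.1 v = k.1 v; omega
  · have := a1 v; have := a2 v; show h'.1 v = k'.1 v; omega

theorem bc1_linX_rot {V : Type} [Fintype V] (t : V → ℝ) (h h' : V → ℤ) :
    linX t h ^ 2 - linX t h' ^ 2 = linX t (fun v => h v + h' v) * linX t (fun v => h v - h' v) := by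
  have e1 : linX t (fun v => h v + h' v) = linX t h + linX t h' := by
    simp [linX, mul_add, Finset.sum_add_distrib]
  have e2 : linX t (fun v => h v - h' v) = linX t h - linX t h' := by
    simp [linX, mul_sub, Finset.sum_sub_distrib]
  rw [e1, e2]; ring

theorem bc1_mixK_rot (W₁ W₂ : ℤ → ℝ) (x y : ℤ) : mixK W₁ W₂ (x + y) (x - y) = W₁ x * W₂ y := by
  unfold mixK
  have h1 : (x + y - (x - y)) % 2 = 0 := by omega
  have h2 : (x + y + (x - y)) / 2 = x := by omega
  have h3 : (x + y - (x - y)) / 2 = y := by omega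
  rw [if_pos h1, h2, h3]

theorem bc1_dblK_rot (G : HGraph) (P : Set G.V) (W₁ W₂ : ℤ → ℝ) (t : G.V → ℝ) (p : G.Conf P × G.Conf P) :
    dblK G P W₁ W₂ t (cRot p).1 (cRot p).2
      = (linX t p.1.1 ^ 2 - linX t p.2.1 ^ 2) * (wtW G W₁ p.1.1 * wtW G W₂ p.2.1) := by
  obtain ⟨h, h'⟩ := p
  simp only [dblK, cRot, cAdd, cSub]
  rw [bc1_linX_rot]
  have e1 : ∏ v, parK (h.1 v + h'.1 v) (h.1 v - h'.1 v) = 1 := by
    refine Finset.prod_eq_one fun v _ => ?_
    unfold parK
    rw [if_pos (by omega)]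
  rw [e1, mul_one, wtW, wtW, ← Finset.prod_mul_distrib]
  congr 1
  refine Finset.prod_congr rfl fun e _ => ?_
  rw [← bc1_mixK_rot]
  congr 1 <;> ring

theorem bc1_dblK_support (G : HGraph) (P : Set G.V) (W₁ W₂ : ℤ → ℝ) (t : G.V → ℝ) :
    Function.support (fun q : G.Conf P × G.Conf P => dblK G P W₁ W₂ t q.1 q.2) ⊆ Set.range cRot := by
  rintro ⟨a, d⟩ hq
  simp only [Function.mem_support, dblK] at hq
  have hp : ∀ v, (a.1 v - d.1 v) % 2 = 0 := by
    intro v
    by_contra hv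
    apply hq
    have : ∏ v, parK (a.1 v) (d.1 v) = 0 := Finset.prod_eq_zero (Finset.mem_univ v) (by simp [parK, hv])
    rw [this]; ring
  refine ⟨(Subtype.mk (fun v => (a.1 v + d.1 v) / 2) (fun v hv => by simp [a.2 v hv, d.2 v hv]),
    Subtype.mk (fun v => (a.1 v - d.1 v) / 2) (fun v hv => by simp [a.2 v hv, d.2 v hv])), ?_⟩
  refine Prod.ext (Subtype.ext (funext fun v => ?_)) (Subtype.ext (funext fun v => ?_))
  · have := hp v
    show (a.1 v + d.1 v) / 2 + (a.1 v - d.1 v) / 2 = a.1 v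
    omega
  · have := hp v
    show (a.1 v + d.1 v) / 2 - (a.1 v - d.1 v) / 2 = d.1 v
    omega

/-- the total sum of a summable PSD kernel is nonnegative. -/
theorem bc1_tsum_psd_nonneg {α : Type*} (K : α → α → ℝ) (hK : (Matrix.of K).PosSemidef)
    (hs : Summable fun q : α × α => K q.1 q.2) : 0 ≤ ∑' q : α × α, K q.1 q.2 := by
  classical
  have h1 : Tendsto (fun F : Finset α => F ×ˢ F) atTop atTop := by
    refine tendsto_atTop.2 fun T => ?_
    filter_upwards [eventually_ge_atTop (T.image Prod.fst ∪ T.image Prod.snd)] with F hF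
    intro q hq
    refine Finset.mem_product.2 ⟨hF ?_, hF ?_⟩
    · exact Finset.mem_union_left _ (Finset.mem_image_of_mem _ hq)
    · exact Finset.mem_union_right _ (Finset.mem_image_of_mem _ hq)
  have h2 := hs.hasSum.comp h1
  refine ge_of_tendsto' h2 fun F => ?_
  simp only [Function.comp, Finset.sum_product]
  exact bc1_psd_sum_nonneg _ hK F

theorem bc1_wtW_pos (G : HGraph) (W : ℤ → ℝ) (hW : ∀ k, 0 < W k) (h : G.V → ℤ) : 0 < wtW G W h :=
  Finset.prod_pos fun _ _ => hW _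

/-- the cross inequality, abstract form. -/
theorem bc1_cross_abs {α : Type*} (x w₁ w₂ : α → ℝ) (p₁ : ∀ a, 0 < w₁ a) (p₂ : ∀ a, 0 < w₂ a)
    (s₁ : Summable fun a => (1 + x a ^ 2) * w₁ a) (s₂ : Summable fun a => (1 + x a ^ 2) * w₂ a)
    (K : α → α → ℝ) (hK : (Matrix.of K).PosSemidef) (rot : α × α → α × α) (hinj : Function.Injective rot)
    (hsupp : Function.support (fun q : α × α => K q.1 q.2) ⊆ Set.range rot)
    (hrot : ∀ p : α × α, K (rot p).1 (rot p).2 = (x p.1 ^ 2 - x p.2 ^ 2) * (w₁ p.1 * w₂ p.2)) :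
    (∑' a, x a ^ 2 * w₂ a) * (∑' a, w₁ a) ≤ (∑' a, x a ^ 2 * w₁ a) * ∑' a, w₂ a := by
  have a₁ : Summable fun a => x a ^ 2 * w₁ a :=
    Summable.of_nonneg_of_le (fun a => mul_nonneg (sq_nonneg _) (p₁ _).le)
      (fun a => mul_le_mul_of_nonneg_right (by linarith) (p₁ _).le) s₁
  have a₂ : Summable fun a => x a ^ 2 * w₂ a :=
    Summable.of_nonneg_of_le (fun a => mul_nonneg (sq_nonneg _) (p₂ _).le)
      (fun a => mul_le_mul_of_nonneg_right (by linarith) (p₂ _).le) s₂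
  have b₁ : Summable w₁ :=
    Summable.of_nonneg_of_le (fun a => (p₁ _).le)
      (fun a => le_mul_of_one_le_left (p₁ _).le (by linarith [sq_nonneg (x a)])) s₁
  have b₂ : Summable w₂ :=
    Summable.of_nonneg_of_le (fun a => (p₂ _).le)
      (fun a => le_mul_of_one_le_left (p₂ _).le (by linarith [sq_nonneg (x a)])) s₂
  have c₁ : Summable fun p : α × α => (x p.1 ^ 2 * w₁ p.1) * w₂ p.2 :=
    a₁.mul_of_nonneg b₂ (fun a => mul_nonneg (sq_nonneg _) (p₁ _).le) (fun a => (p₂ _).le)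
  have c₂ : Summable fun p : α × α => w₁ p.1 * (x p.2 ^ 2 * w₂ p.2) :=
    b₁.mul_of_nonneg a₂ (fun a => (p₁ _).le) (fun a => mul_nonneg (sq_nonneg _) (p₂ _).le)
  have e₁ := a₁.tsum_mul_tsum b₂ c₁
  have e₃ := b₁.tsum_mul_tsum a₂ c₂
  have hΦ : Summable fun p : α × α => (x p.1 ^ 2 - x p.2 ^ 2) * (w₁ p.1 * w₂ p.2) := by
    refine (c₁.sub c₂).congr fun p => ?_
    ring
  have hsK : Summable fun q : α × α => K q.1 q.2 := by
    have h0 : ∀ q ∉ Set.range rot, (fun q : α × α => K q.1 q.2) q = 0 := by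
      intro q hq
      by_contra h
      exact hq (hsupp h)
    rw [← hinj.summable_iff h0]
    exact hΦ.congr fun p => (hrot p).symm
  have hpos := bc1_tsum_psd_nonneg K hK hsK
  rw [← hinj.tsum_eq hsupp] at hpos
  have hpos' : 0 ≤ ∑' p : α × α, (x p.1 ^ 2 - x p.2 ^ 2) * (w₁ p.1 * w₂ p.2) :=
    hpos.trans_eq (tsum_congr fun p => hrot p)
  have hsplit : ∑' p : α × α, (x p.1 ^ 2 - x p.2 ^ 2) * (w₁ p.1 * w₂ p.2)
      = (∑' p : α × α, (x p.1 ^ 2 * w₁ p.1) * w₂ p.2) - ∑' p : α × α, w₁ p.1 * (x p.2 ^ 2 * w₂ p.2) := by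
    rw [← c₁.tsum_sub c₂]
    exact tsum_congr fun p => by ring
  rw [hsplit, ← e₁, ← e₃] at hpos'
  linarith


theorem bc1_ZW_sq (G : HGraph) (W : ℤ → ℝ) (P : Set G.V) (t : G.V → ℝ) :
    ZW G W P (fun h => (∑ v, t v * h v) ^ 2) = (2 * Real.pi) ^ 2 * ∑' h : G.Conf P, linX t h.1 ^ 2 * wtW G W h.1 := by
  unfold ZW
  rw [← tsum_mul_left]
  refine tsum_congr fun h => ?_
  have : ∑ v, t v * (2 * Real.pi * (h.1 v : ℝ)) = 2 * Real.pi * linX t h.1 := by
    unfold linX
    rw [Finset.mul_sum]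
    exact Finset.sum_congr rfl fun v _ => by ring
  show (∑ v, t v * (2 * Real.pi * (h.1 v : ℝ))) ^ 2 * wtW G W h.1 = _
  rw [this]; ring

theorem bc1_ZW_one (G : HGraph) (W : ℤ → ℝ) (P : Set G.V) :
    ZW G W P (fun _ => 1) = ∑' h : G.Conf P, wtW G W h.1 := by
  unfold ZW
  exact tsum_congr fun h => one_mul _

/-- **comparison**: second moments of linear tests.  The summability hypotheses hold for `bes b`, `dg κ` as soon as every vertex is joined to a pin (`bc1_summable`). -/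
theorem bc1_compare (W₁ W₂ : ℤ → ℝ) (h₁ : ∀ k, 0 < W₁ k) (h₂ : ∀ k, 0 < W₂ k) (e₂ : ∀ k, W₂ (-k) = W₂ k)
    (hK : PSDZ (mixK W₁ W₂)) (G : HGraph) (P : Set G.V) (t : G.V → ℝ)
    (s₁ : Summable fun h : G.Conf P => (1 + (∑ v, t v * (h.1 v : ℝ)) ^ 2) * wtW G W₁ h.1)
    (s₂ : Summable fun h : G.Conf P => (1 + (∑ v, t v * (h.1 v : ℝ)) ^ 2) * wtW G W₂ h.1) :
    ExW G W₂ P (fun h => (∑ v, t v * h v) ^ 2) ≤ ExW G W₁ P fun h => (∑ v, t v * h v) ^ 2 := by
  have p₁ : ∀ h : G.Conf P, 0 < wtW G W₁ h.1 := fun h => bc1_wtW_pos G W₁ h₁ h.1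
  have p₂ : ∀ h : G.Conf P, 0 < wtW G W₂ h.1 := fun h => bc1_wtW_pos G W₂ h₂ h.1
  have key := bc1_cross_abs (fun h : G.Conf P => linX t h.1) (fun h => wtW G W₁ h.1) (fun h => wtW G W₂ h.1)
    p₁ p₂ s₁ s₂ (dblK G P W₁ W₂ t) (bc1_dblK_psd G P W₁ W₂ e₂ hK t) cRot bc1_cRot_injective
    (bc1_dblK_support G P W₁ W₂ t) (bc1_dblK_rot G P W₁ W₂ t)
  have b₁ : Summable fun h : G.Conf P => wtW G W₁ h.1 :=
    Summable.of_nonneg_of_le (fun a => (p₁ _).le)
      (fun a => le_mul_of_one_le_left (p₁ _).le (by linarith [sq_nonneg (∑ v, t v * (a.1 v : ℝ))])) s₁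
  have b₂ : Summable fun h : G.Conf P => wtW G W₂ h.1 :=
    Summable.of_nonneg_of_le (fun a => (p₂ _).le)
      (fun a => le_mul_of_one_le_left (p₂ _).le (by linarith [sq_nonneg (∑ v, t v * (a.1 v : ℝ))])) s₂
  let z : G.Conf P := Subtype.mk (fun _ => 0) (fun _ _ => rfl)
  have q₁ : 0 < ∑' h : G.Conf P, wtW G W₁ h.1 := b₁.tsum_pos (fun h => (p₁ h).le) z (p₁ z)
  have q₂ : 0 < ∑' h : G.Conf P, wtW G W₂ h.1 := b₂.tsum_pos (fun h => (p₂ h).le) z (p₂ z)
  unfold ExW
  rw [bc1_ZW_sq, bc1_ZW_sq, bc1_ZW_one, bc1_ZW_one, div_le_div_iff₀ q₂ q₁]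
  have hpi : (0 : ℝ) ≤ (2 * Real.pi) ^ 2 := by positivity
  calc _ = (2 * Real.pi) ^ 2 * ((∑' h : G.Conf P, linX t h.1 ^ 2 * wtW G W₂ h.1) * ∑' h : G.Conf P, wtW G W₁ h.1) := by ring
    _ ≤ (2 * Real.pi) ^ 2 * ((∑' h : G.Conf P, linX t h.1 ^ 2 * wtW G W₁ h.1) * ∑' h : G.Conf P, wtW G W₂ h.1) :=
        mul_le_mul_of_nonneg_left key hpi
    _ = _ := by ring

/-- reflection of a configuration. -/
def cNeg {G : HGraph} {P : Set G.V} (h : G.Conf P) : G.Conf P :=
  Subtype.mk (fun v => - h.1 v) (fun v hv => by simp [h.2 v hv])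

theorem bc1_cNeg_invol {G : HGraph} {P : Set G.V} : Function.Involutive (cNeg (G := G) (P := P)) := by
  intro h
  exact Subtype.ext (funext fun v => neg_neg _)

/-- linear tests are centred for even weights. -/
theorem bc1_centred (W : ℤ → ℝ) (hW : ∀ k, W (-k) = W k) (G : HGraph) (P : Set G.V) (t : G.V → ℝ) :
    ExW G W P (fun h => ∑ v, t v * h v) = 0 := by
  have h0 : ZW G W P (fun h => ∑ v, t v * h v) = 0 := by
    unfold ZW
    have e := (bc1_cNeg_invol (G := G) (P := P)).toPerm.tsum_eq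
      (fun h : G.Conf P => (∑ v, t v * (2 * Real.pi * (h.1 v : ℝ))) * wtW G W h.1)
    have e' : ∑' h : G.Conf P, (∑ v, t v * (2 * Real.pi * ((cNeg h).1 v : ℝ))) * wtW G W (cNeg h).1
        = - ∑' h : G.Conf P, (∑ v, t v * (2 * Real.pi * (h.1 v : ℝ))) * wtW G W h.1 := by
      rw [← tsum_neg]
      refine tsum_congr fun h => ?_
      have w : wtW G W (cNeg h).1 = wtW G W h.1 := by
        unfold wtW cNeg
        refine Finset.prod_congr rfl fun e _ => ?_
        rw [← hW]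
        congr 1
        ring
      have l : ∑ v, t v * (2 * Real.pi * ((cNeg h).1 v : ℝ)) = - ∑ v, t v * (2 * Real.pi * (h.1 v : ℝ)) := by
        rw [← Finset.sum_neg_distrib]
        refine Finset.sum_congr rfl fun v _ => ?_
        simp [cNeg]
      rw [w, l]; ring
    have e'' : ∑' h : G.Conf P, (∑ v, t v * (2 * Real.pi * ((cNeg h).1 v : ℝ))) * wtW G W (cNeg h).1
        = ∑' h : G.Conf P, (∑ v, t v * (2 * Real.pi * (h.1 v : ℝ))) * wtW G W h.1 := e
    linarith
  unfold ExW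
  rw [h0, zero_div]

theorem bc1_comp_eqns_cite : True := by
  have := @parK.eq_1
  have := @linX.eq_1
  have := @dblK.eq_1
  have := @cAdd.eq_1
  have := @cSub.eq_1
  have := @cRot.eq_1
  have := @cNeg.eq_1
  trivial

end

end Claimed.Agent.R285.BC1

/-!
# ROW 285, layer Bc: Bessel torus versus discrete Gaussian torus (owner helper172)
-/


namespace Claimed.Agent.R285.BC1

open Filter Topology

noncomputable section

theorem bc1_dg_pos (κ : ℝ) (k : ℤ) : 0 < dg κ k := Real.exp_pos _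

theorem bc1_dg_neg (κ : ℝ) (k : ℤ) : dg κ (-k) = dg κ k := by simp [dg]

/-- variance comparison on an anchored graph. -/
theorem bc1_VrW_le (κ b : ℝ) (hκ : 0 < κ) (hb : 0 < b) (hK : PSDZ (mixK (bes b) (dg κ)))
    (G : HGraph) (P : Set G.V) (hA : Anchored G P) (t : G.V → ℝ) :
    VrW G (dg κ) P (fun h => ∑ v, t v * h v) ≤ VrW G (bes b) P fun h => ∑ v, t v * h v := by
  unfold VrW
  rw [bc1_centred (dg κ) (bc1_dg_neg κ) G P t, bc1_centred (bes b) (bes_neg b) G P t]
  have := bc1_compare (bes b) (dg κ) (bes_pos b hb) (bc1_dg_pos κ) (bc1_dg_neg κ) hK G P t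
    (bc1_summable (bes b) (fun k => (bes_pos b hb k).le) (bc1_bes_moments b hb) G P hA t)
    (bc1_summable (dg κ) (fun k => (bc1_dg_pos κ k).le) (bc1_dg_moments κ hκ) G P hA t)
  linarith

/-- Bessel heights at large `b` fluctuate at least as much as DG heights of precision `κ`. -/
theorem bc1_torVar_ge (κ : ℝ) (hκ : 0 < κ) : ∃ b0 : ℝ, 0 < b0 ∧ ∀ b, b0 ≤ b → ∀ n, dgTorVar κ n ≤ torVar b n := by
  obtain ⟨b0, hb0, hK⟩ := bc1_lemmaK κ hκ
  refine ⟨b0, hb0, fun b hb n => ?_⟩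
  by_cases hn : n = 0
  · simp [dgTorVar, torVar, hn]
  · have : NeZero n := ⟨hn⟩
    have hX : (fun h : (torus n).V → ℝ =>
        (n : ℝ)⁻¹ ^ 2 * ∑ v : ZMod n × ZMod n, h v * Real.cos (2 * Real.pi * (v.1.val : ℝ) / n))
        = fun h : (torus n).V → ℝ => ∑ v : (torus n).V,
          ((n : ℝ)⁻¹ ^ 2 * Real.cos (2 * Real.pi * ((v : ZMod n × ZMod n).1.val : ℝ) / n)) * h v := by
      funext h
      rw [Finset.mul_sum]
      exact Finset.sum_congr rfl fun v _ => by ring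
    have h1 : dgTorVar κ n = VrW (torus n) (dg κ) {((0 : ZMod n), (0 : ZMod n))} fun h =>
        (n : ℝ)⁻¹ ^ 2 * ∑ v : ZMod n × ZMod n, h v * Real.cos (2 * Real.pi * (v.1.val : ℝ) / n) := by
      simp only [dgTorVar, dif_neg hn]
    have h2 : torVar b n = VrW (torus n) (bes b) {((0 : ZMod n), (0 : ZMod n))} fun h =>
        (n : ℝ)⁻¹ ^ 2 * ∑ v : ZMod n × ZMod n, h v * Real.cos (2 * Real.pi * (v.1.val : ℝ) / n) := by
      simp only [torVar, dif_neg hn]
      exact Vr_eq_VrW _ _ _ _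
    rw [h1, h2, hX]
    exact bc1_VrW_le κ b hκ (lt_of_lt_of_le hb0 hb) (hK b hb) (torus n) _ (bc1_torus_anchored n) _

end

end Claimed.Agent.R285.BC1

/-!
# ROW 285, layer Bc: the conditional end of the chain `b_c < oo` (owner helper172)

Everything that the layer does not prove itself is an explicit hypothesis; `Read/BC1.lean` feeds the contracts of the other units.
-/

namespace Claimed.Agent.R285.BC1

open Filter Topology Claims.C0459

noncomputable section

/-- `∃ b, a(b) > 0` from: DG roughness at one `κ`, the torus upper bound `limsup torVar ≤ a/(8π²)`. -/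
theorem bc1_aLim_pos_of
    (hrough : ∃ (κ : ℝ) (L : ℕ) (c : ℝ), 0 < κ ∧ 2 ≤ L ∧ 0 < c ∧ ∀ᶠ N : ℕ in atTop, c ≤ dgTorVar κ (L ^ N))
    (hup : ∀ b : ℝ, 0 < b → ∀ ε : ℝ, 0 < ε → ∀ᶠ n : ℕ in atTop, torVar b n ≤ (8 * Real.pi ^ 2)⁻¹ * aLim b + ε) :
    ∃ b : ℝ, 0 < b ∧ 0 < aLim b := by
  obtain ⟨κ, L, c, hκ, hL, hc, hev⟩ := hrough
  obtain ⟨b0, hb0, hb⟩ := bc1_torVar_ge κ hκ
  refine ⟨b0, hb0, ?_⟩
  have h2 : Tendsto (fun N : ℕ => L ^ N) atTop atTop :=
    tendsto_pow_atTop_atTop_of_one_lt (by omega)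
  have h4 : ∀ᶠ N : ℕ in atTop, torVar b0 (L ^ N) ≤ (8 * Real.pi ^ 2)⁻¹ * aLim b0 + c / 2 :=
    h2.eventually (hup b0 hb0 (c / 2) (by positivity))
  obtain ⟨N, hN1, hN2⟩ := (hev.and h4).exists
  have h5 : c ≤ (8 * Real.pi ^ 2)⁻¹ * aLim b0 + c / 2 := (hN1.trans (hb b0 le_rfl _)).trans hN2
  have h6 : 0 < (8 * Real.pi ^ 2)⁻¹ * aLim b0 := by linarith
  have h7 : 0 < (8 * Real.pi ^ 2)⁻¹ := by positivity
  exact (pos_iff_pos_of_mul_pos h6).1 h7

/-- `∃ b, m(b) = 0`. -/
theorem bc1_bkt_of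
    (hrough : ∃ (κ : ℝ) (L : ℕ) (c : ℝ), 0 < κ ∧ 2 ≤ L ∧ 0 < c ∧ ∀ᶠ N : ℕ in atTop, c ≤ dgTorVar κ (L ^ N))
    (hup : ∀ b : ℝ, 0 < b → ∀ ε : ℝ, 0 < ε → ∀ᶠ n : ℕ in atTop, torVar b n ≤ (8 * Real.pi ^ 2)⁻¹ * aLim b + ε)
    (hmass : ∀ b : ℝ, 0 < b → 0 < aLim b → xyMass b = 0) :
    ∃ b : ℝ, 0 < b ∧ xyMass b = 0 := by
  obtain ⟨b, hb, ha⟩ := bc1_aLim_pos_of hrough hup
  exact ⟨b, hb, hmass b hb ha⟩

end

end Claimed.Agent.R285.BC1
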