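import Claimed.Agent.R285.Bc.Defs
import Claimed.Agent.R285.Rsd.Bes

set_option autoImplicit false

/-!
# ROW 285, layer Bc: three term recurrence of the Bessel weight (owner helper172)

`bes b k = e^{-b} ∑_m (b/2)^{2m+|k|} / (m! (m+|k|)!)`.
For `n : ℕ`, `x = b/2`, `a(m,n) = x^{2m+n}/(m!(m+n)!)`:  `a(m+1,n) - a(m,n+2) = (n+1) x^{2m+2+n}/((m+1)!(m+n+2)!)`, `a(0,n) = (n+1) x^n/(n+1)!`;
so `I_n - I_{n+2} = ((n+1)/x) I_{n+1}`.  Then the integer cases.
-/


namespace Claimed.Agent.R285.BC1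

open Filter Topology

noncomputable section

/-- the series of `I_n(b)`. -/
def besT (b : ℝ) (n m : ℕ) : ℝ := (b / 2) ^ (2 * m + n) / ((m.factorial : ℝ) * ((m + n).factorial : ℝ))

theorem bc1_besT_summable (b : ℝ) (n : ℕ) : Summable (besT b n) := by
  have := bes_inner_summable b (n : ℤ)
  simp only [Int.natAbs_natCast] at this
  exact this

theorem bc1_bes_nat (b : ℝ) (n : ℕ) : bes b (n : ℤ) = Real.exp (-b) * ∑' m, besT b n m := by
  simp [bes, besT]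

theorem bc1_besT_step (b : ℝ) (hb : 0 < b) (n m : ℕ) :
    besT b n (m + 1) - besT b (n + 2) m = 2 * ((n : ℝ) + 1) / b * besT b (n + 1) (m + 1) := by
  unfold besT
  have e1 : m + 1 + n = (m + n) + 1 := by ring
  have e2 : m + (n + 2) = (m + n) + 1 + 1 := by ring
  have e3 : m + 1 + (n + 1) = (m + n) + 1 + 1 := by ring
  have p1 : 2 * (m + 1) + n = (2 * m + n) + 2 := by ring
  have p2 : 2 * m + (n + 2) = (2 * m + n) + 2 := by ring
  have p3 : 2 * (m + 1) + (n + 1) = (2 * m + n) + 3 := by ring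
  rw [e1, e2, e3, p1, p2, p3]
  simp only [Nat.factorial_succ, Nat.cast_mul, Nat.cast_add, Nat.cast_one]
  have f1 : (m.factorial : ℝ) ≠ 0 := by positivity
  have f2 : ((m + n).factorial : ℝ) ≠ 0 := by positivity
  have f3 : ((m : ℝ) + 1) ≠ 0 := by positivity
  have f4 : ((m : ℝ) + n + 1) ≠ 0 := by positivity
  have f5 : ((m : ℝ) + n + 1 + 1) ≠ 0 := by positivity
  field_simp
  ring

theorem bc1_besT_zero (b : ℝ) (hb : 0 < b) (n : ℕ) :
    besT b n 0 = 2 * ((n : ℝ) + 1) / b * besT b (n + 1) 0 := by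
  unfold besT
  simp only [Nat.mul_zero, Nat.zero_add, Nat.factorial_zero, Nat.cast_one, one_mul, Nat.factorial_succ,
    Nat.cast_mul, Nat.cast_add]
  have f2 : (n.factorial : ℝ) ≠ 0 := by positivity
  have f4 : ((n : ℝ) + 1) ≠ 0 := by positivity
  field_simp
  ring

theorem bc1_bes_rec_nat (b : ℝ) (hb : 0 < b) (n : ℕ) :
    bes b (n : ℤ) - bes b ((n + 2 : ℕ) : ℤ) = 2 * ((n : ℝ) + 1) / b * bes b ((n + 1 : ℕ) : ℤ) := by
  rw [bc1_bes_nat, bc1_bes_nat, bc1_bes_nat]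
  have h0 := bc1_besT_summable b n
  have h1 := bc1_besT_summable b (n + 1)
  have h2 := bc1_besT_summable b (n + 2)
  rw [h0.tsum_eq_zero_add, h1.tsum_eq_zero_add]
  have h0' : Summable fun m => besT b n (m + 1) := (summable_nat_add_iff 1).2 h0
  have h1' : Summable fun m => besT b (n + 1) (m + 1) := (summable_nat_add_iff 1).2 h1
  have key : ∑' m, besT b n (m + 1) - ∑' m, besT b (n + 2) m
      = 2 * ((n : ℝ) + 1) / b * ∑' m, besT b (n + 1) (m + 1) := by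
    rw [← h0'.tsum_sub h2, ← tsum_mul_left]
    exact tsum_congr fun m => bc1_besT_step b hb n m
  have z := bc1_besT_zero b hb n
  have : besT b n 0 + ∑' m, besT b n (m + 1) - ∑' m, besT b (n + 2) m
      = 2 * ((n : ℝ) + 1) / b * (besT b (n + 1) 0 + ∑' m, besT b (n + 1) (m + 1)) := by
    rw [mul_add, ← z, ← key]; ring
  calc _ = Real.exp (-b) * (besT b n 0 + ∑' m, besT b n (m + 1) - ∑' m, besT b (n + 2) m) := by ring
    _ = _ := by rw [this]; ring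

/-- three term recurrence `I_{n-1} - I_{n+1} = (2n/b) I_n`. -/
theorem bc1_bes_rec (b : ℝ) (hb : 0 < b) (n : ℤ) :
    bes b (n - 1) - bes b (n + 1) = 2 * n / b * bes b n := by
  rcases lt_trichotomy n 0 with hn | hn | hn
  · obtain ⟨k, rfl⟩ : ∃ k : ℕ, n = -((k : ℤ) + 1) := ⟨(-n - 1).toNat, by omega⟩
    have h := bc1_bes_rec_nat b hb k
    have e1 : -((k : ℤ) + 1) - 1 = -((k + 2 : ℕ) : ℤ) := by push_cast; ring
    have e2 : -((k : ℤ) + 1) + 1 = -((k : ℕ) : ℤ) := by ring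
    have e3 : -((k : ℤ) + 1) = -((k + 1 : ℕ) : ℤ) := by push_cast; ring
    rw [e1, e2, e3, bes_neg, bes_neg, bes_neg]
    push_cast at h ⊢
    have : 2 * -((k : ℝ) + 1) / b * bes b ((k : ℤ) + 1) = -(2 * ((k : ℝ) + 1) / b * bes b ((k : ℤ) + 1)) := by ring
    rw [this, ← h]; ring
  · subst hn
    have : bes b (0 - 1) = bes b (0 + 1) := by
      rw [show (0 : ℤ) - 1 = -(0 + 1) by ring, bes_neg]
    rw [this]; simp
  · obtain ⟨k, rfl⟩ : ∃ k : ℕ, n = (k : ℤ) + 1 := ⟨(n - 1).toNat, by omega⟩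
    have h := bc1_bes_rec_nat b hb k
    have e1 : (k : ℤ) + 1 - 1 = ((k : ℕ) : ℤ) := by ring
    have e2 : (k : ℤ) + 1 + 1 = ((k + 2 : ℕ) : ℤ) := by push_cast; ring
    have e3 : (k : ℤ) + 1 = ((k + 1 : ℕ) : ℤ) := by push_cast; ring
    rw [e1, e2, e3]
    push_cast at h ⊢
    linarith [h]

theorem bc1_rec_eqns_cite : True := by
  have := @besT.eq_1
  trivial

end

end Claimed.Agent.R285.BC1

/-!
# ROW 285, layer Bc, two sided Turan inequality from the recurrence alone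

Use ONLY `bes_pos`, `bes_neg` (`Rsd/Bes.lean`), `bc1_bes_rec`.  For `n : ℕ` put `A_n = bes b n`, `r_n = √(n² + b²)`.
  `U n : b A_{n+1} ≤ (r_n - n) A_n`,     `Lo n : (r_{n+1} - (n+1)) A_n ≤ b A_{n+1}`.
 (C) `b² ≤ 4(n+1) ⟹ U n`:  `b A_n ≥ 2(n+1) A_{n+1}` (recurrence, `A_{n+2} ≥ 0`) and `r_n + n ≤ 2(n+1)`; multiply by `r_n - n` (`(r_n-n)(r_n+n) = b²`).
 (A) `U (n+1) ⟹ Lo n`:  `b A_n = b A_{n+2} + 2(n+1) A_{n+1} ≤ (r_{n+1} + (n+1)) A_{n+1}`; multiply by `r_{n+1} - (n+1) ≥ 0`.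
 (B) `Lo (n+1) ⟹ U n`:  `b A_n ≥ (r_{n+2} + n) A_{n+1} ≥ (r_n + n) A_{n+1}`; multiply by `r_n - n ≥ 0`.
 So `U (n+2) ⟹ U n`; induction on `k` in `b² ≤ 4(n+2k+1) → U n`; hence `U n`, `Lo n` for all `n`.
 Turan at `n ≥ 0`: `A_{n-1} A_{n+1} = A_{n+1}² + (2n/b) A_n A_{n+1}` (for `n = 0`: `bes b (-1) = bes b 1`).  With `B = A_{n+1}`, `A = A_n`, `u = (r_n-n)/b`, `l = (r_{n+1}-(n+1))/b`:
 `u² + 2nu/b = 1`, `l² + 2nl/b = 1 - 2l/b ≥ 1 - 2/b` (`l ≤ 1`).  `n < 0` by symmetry.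
-/


namespace Claimed.Agent.R285.BC1

noncomputable section

/-- `r_n = √(n² + b²)`. -/
def amR (b : ℝ) (n : ℕ) : ℝ := Real.sqrt ((n : ℝ) ^ 2 + b ^ 2)

theorem bc1_amR_sq (b : ℝ) (n : ℕ) : amR b n ^ 2 = (n : ℝ) ^ 2 + b ^ 2 := Real.sq_sqrt (by positivity)

theorem bc1_amR_ge (b : ℝ) (n : ℕ) : (n : ℝ) ≤ amR b n := by
  unfold amR
  exact Real.le_sqrt_of_sq_le (by nlinarith [sq_nonneg b])

theorem bc1_amR_mono (b : ℝ) {n m : ℕ} (h : n ≤ m) : amR b n ≤ amR b m := by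
  unfold amR
  apply Real.sqrt_le_sqrt
  have : (n : ℝ) ≤ m := by exact_mod_cast h
  nlinarith [Nat.cast_nonneg (α := ℝ) n]

/-- recurrence in the form `b A_n = b A_{n+2} + 2(n+1) A_{n+1}`. -/
theorem bc1_rec' (b : ℝ) (hb : 0 < b) (n : ℕ) :
    b * bes b (n : ℤ) = b * bes b ((n + 2 : ℕ) : ℤ) + 2 * ((n : ℝ) + 1) * bes b ((n + 1 : ℕ) : ℤ) := by
  have h := bc1_bes_rec_nat b hb n
  have : b * (bes b (n : ℤ) - bes b ((n + 2 : ℕ) : ℤ)) = 2 * ((n : ℝ) + 1) * bes b ((n + 1 : ℕ) : ℤ) := by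
    rw [h]; field_simp
  linarith

def amU (b : ℝ) (n : ℕ) : Prop := b * bes b ((n + 1 : ℕ) : ℤ) ≤ (amR b n - n) * bes b (n : ℤ)
def amL (b : ℝ) (n : ℕ) : Prop := (amR b (n + 1) - ((n : ℝ) + 1)) * bes b (n : ℤ) ≤ b * bes b ((n + 1 : ℕ) : ℤ)

theorem bc1_amU_base (b : ℝ) (hb : 0 < b) (n : ℕ) (h : b ^ 2 ≤ 4 * ((n : ℝ) + 1)) : amU b n := by
  unfold amU
  have hp := bes_pos b hb
  have r := bc1_rec' b hb n
  have r2 := bc1_amR_sq b n
  have r0 := bc1_amR_ge b n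
  have hn : (0 : ℝ) ≤ n := Nat.cast_nonneg n
  -- r_n + n ≤ 2(n+1)
  have h1 : amR b n ≤ (n : ℝ) + 2 := by
    have : amR b n ^ 2 ≤ ((n : ℝ) + 2) ^ 2 := by rw [r2]; nlinarith
    exact (sq_le_sq₀ (by linarith) (by linarith)).1 this
  have A := hp (n : ℤ)
  have B := hp ((n + 1 : ℕ) : ℤ)
  have C := hp ((n + 2 : ℕ) : ℤ)
  -- b A ≥ (r + n) B
  have h2 : (amR b n + n) * bes b ((n + 1 : ℕ) : ℤ) ≤ b * bes b (n : ℤ) := by
    have : (amR b n + n) * bes b ((n + 1 : ℕ) : ℤ) ≤ 2 * ((n : ℝ) + 1) * bes b ((n + 1 : ℕ) : ℤ) :=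
      mul_le_mul_of_nonneg_right (by linarith) B.le
    nlinarith [mul_pos hb C]
  have h3 : (amR b n - n) * ((amR b n + n) * bes b ((n + 1 : ℕ) : ℤ)) ≤ (amR b n - n) * (b * bes b (n : ℤ)) :=
    mul_le_mul_of_nonneg_left h2 (by linarith)
  have h4 : (amR b n - n) * ((amR b n + n) * bes b ((n + 1 : ℕ) : ℤ)) = b * (b * bes b ((n + 1 : ℕ) : ℤ)) := by
    have : (amR b n - n) * (amR b n + n) = b ^ 2 := by nlinarith
    calc _ = ((amR b n - n) * (amR b n + n)) * bes b ((n + 1 : ℕ) : ℤ) := by ring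
      _ = _ := by rw [this]; ring
  rw [h4] at h3
  have h5 : b * (b * bes b ((n + 1 : ℕ) : ℤ)) ≤ b * ((amR b n - n) * bes b (n : ℤ)) := by
    calc _ ≤ (amR b n - n) * (b * bes b (n : ℤ)) := h3
      _ = _ := by ring
  exact le_of_mul_le_mul_left h5 hb

theorem bc1_amL_of_amU (b : ℝ) (hb : 0 < b) (n : ℕ) (h : amU b (n + 1)) : amL b n := by
  unfold amU at h
  unfold amL
  have hp := bes_pos b hb
  have r := bc1_rec' b hb n
  have r2 := bc1_amR_sq b (n + 1)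
  have r0 := bc1_amR_ge b (n + 1)
  push_cast at r2 r0 h
  have B := hp ((n + 1 : ℕ) : ℤ)
  -- b A_n ≤ (r' + (n+1)) B
  have h2 : b * bes b (n : ℤ) ≤ (amR b (n + 1) + ((n : ℝ) + 1)) * bes b ((n + 1 : ℕ) : ℤ) := by
    have e : ((n + 1 + 1 : ℕ) : ℤ) = ((n + 2 : ℕ) : ℤ) := rfl
    push_cast at r ⊢
    have h' : b * bes b ((n : ℤ) + 1 + 1) ≤ (amR b (n + 1) - ((n : ℝ) + 1)) * bes b ((n : ℤ) + 1) := h
    have e2 : (n : ℤ) + 1 + 1 = (n : ℤ) + 2 := by ring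
    rw [e2] at h'
    linarith
  have h3 := mul_le_mul_of_nonneg_left h2 (show 0 ≤ amR b (n + 1) - ((n : ℝ) + 1) by linarith)
  have h4 : (amR b (n + 1) - ((n : ℝ) + 1)) * ((amR b (n + 1) + ((n : ℝ) + 1)) * bes b ((n + 1 : ℕ) : ℤ))
      = b * (b * bes b ((n + 1 : ℕ) : ℤ)) := by
    have : (amR b (n + 1) - ((n : ℝ) + 1)) * (amR b (n + 1) + ((n : ℝ) + 1)) = b ^ 2 := by nlinarith
    calc _ = ((amR b (n + 1) - ((n : ℝ) + 1)) * (amR b (n + 1) + ((n : ℝ) + 1))) * bes b ((n + 1 : ℕ) : ℤ) := by ring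
      _ = _ := by rw [this]; ring
  rw [h4] at h3
  have h5 : b * ((amR b (n + 1) - ((n : ℝ) + 1)) * bes b (n : ℤ)) ≤ b * (b * bes b ((n + 1 : ℕ) : ℤ)) := by
    calc _ = (amR b (n + 1) - ((n : ℝ) + 1)) * (b * bes b (n : ℤ)) := by ring
      _ ≤ _ := h3
  exact le_of_mul_le_mul_left h5 hb

theorem bc1_amU_of_amL (b : ℝ) (hb : 0 < b) (n : ℕ) (h : amL b (n + 1)) : amU b n := by
  unfold amL at h
  unfold amU
  have hp := bes_pos b hb
  have r := bc1_rec' b hb n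
  have r2 := bc1_amR_sq b n
  have r0 := bc1_amR_ge b n
  have rm : amR b n ≤ amR b (n + 1 + 1) := bc1_amR_mono b (by omega)
  have B := hp ((n + 1 : ℕ) : ℤ)
  push_cast at h
  -- b A_n ≥ (r_{n+2} + n) B ≥ (r_n + n) B
  have h2 : (amR b n + n) * bes b ((n + 1 : ℕ) : ℤ) ≤ b * bes b (n : ℤ) := by
    push_cast at r ⊢
    have e2 : (n : ℤ) + 1 + 1 = (n : ℤ) + 2 := by ring
    rw [e2] at h
    have B' : 0 < bes b ((n : ℤ) + 1) := by exact_mod_cast B
    nlinarith [mul_le_mul_of_nonneg_right rm B'.le]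
  have h3 := mul_le_mul_of_nonneg_left h2 (show 0 ≤ amR b n - n by linarith)
  have h4 : (amR b n - n) * ((amR b n + n) * bes b ((n + 1 : ℕ) : ℤ)) = b * (b * bes b ((n + 1 : ℕ) : ℤ)) := by
    have : (amR b n - n) * (amR b n + n) = b ^ 2 := by nlinarith
    calc _ = ((amR b n - n) * (amR b n + n)) * bes b ((n + 1 : ℕ) : ℤ) := by ring
      _ = _ := by rw [this]; ring
  rw [h4] at h3
  have h5 : b * (b * bes b ((n + 1 : ℕ) : ℤ)) ≤ b * ((amR b n - n) * bes b (n : ℤ)) := by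
    calc _ ≤ (amR b n - n) * (b * bes b (n : ℤ)) := h3
      _ = _ := by ring
  exact le_of_mul_le_mul_left h5 hb

theorem bc1_amU_aux (b : ℝ) (hb : 0 < b) : ∀ (k n : ℕ), b ^ 2 ≤ 4 * ((n : ℝ) + 2 * k + 1) → amU b n := by
  intro k
  induction k with
  | zero => intro n h; exact bc1_amU_base b hb n (by simpa using h)
  | succ k ih =>
    intro n h
    apply bc1_amU_of_amL b hb n
    apply bc1_amL_of_amU b hb (n + 1)
    apply ih
    push_cast at h ⊢
    linarith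

theorem bc1_amU (b : ℝ) (hb : 0 < b) (n : ℕ) : amU b n := by
  obtain ⟨k, hk⟩ := exists_nat_ge (b ^ 2)
  apply bc1_amU_aux b hb k n
  have : (0 : ℝ) ≤ n := Nat.cast_nonneg n
  have : (0 : ℝ) ≤ k := Nat.cast_nonneg k
  linarith

theorem bc1_amL (b : ℝ) (hb : 0 < b) (n : ℕ) : amL b n := bc1_amL_of_amU b hb n (bc1_amU b hb (n + 1))

theorem bc1_turan_nat (b : ℝ) (hb : 2 < b) (n : ℕ) :
    (1 - 2 / b) * bes b (n : ℤ) ^ 2 ≤ bes b ((n : ℤ) - 1) * bes b ((n : ℤ) + 1) ∧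
      bes b ((n : ℤ) - 1) * bes b ((n : ℤ) + 1) ≤ bes b (n : ℤ) ^ 2 := by
  have hb0 : 0 < b := by linarith
  have hp := bes_pos b hb0
  have hU := bc1_amU b hb0 n
  have hL := bc1_amL b hb0 n
  unfold amU at hU
  unfold amL at hL
  push_cast at hU hL
  have hrec := bc1_bes_rec b hb0 (n : ℤ)
  set A := bes b (n : ℤ) with hA
  set B := bes b ((n : ℤ) + 1) with hB
  have A0 : 0 < A := hp _
  have B0 : 0 < B := hp _
  have hn : (0 : ℝ) ≤ n := Nat.cast_nonneg n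
  have e : bes b ((n : ℤ) - 1) = B + 2 * n / b * A := by
    push_cast at hrec
    linarith
  rw [e]
  have r2 := bc1_amR_sq b n
  have r0 := bc1_amR_ge b n
  have s2 := bc1_amR_sq b (n + 1)
  have s0 := bc1_amR_ge b (n + 1)
  push_cast at s2 s0
  set r := amR b n
  set r' := amR b (n + 1)
  -- multiply everything by b²
  have key : b ^ 2 * ((B + 2 * n / b * A) * B) = (b * B) ^ 2 + 2 * n * A * (b * B) := by
    field_simp
  have hs : r' ≤ (n : ℝ) + 1 + b := by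
    have : r' ^ 2 ≤ ((n : ℝ) + 1 + b) ^ 2 := by rw [s2]; nlinarith
    exact (sq_le_sq₀ (by linarith) (by linarith)).1 this
  have hb2 : 0 < b ^ 2 := by positivity
  constructor
  · -- lower bound
    have w0 : 0 ≤ (r' - ((n : ℝ) + 1)) * A := mul_nonneg (by linarith) A0.le
    have m1 : ((r' - ((n : ℝ) + 1)) * A) ^ 2 + 2 * n * A * ((r' - ((n : ℝ) + 1)) * A)
        ≤ (b * B) ^ 2 + 2 * n * A * (b * B) := by
      have q1 : ((r' - ((n : ℝ) + 1)) * A) ^ 2 ≤ (b * B) ^ 2 := pow_le_pow_left₀ w0 hL 2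
      have q2 : 2 * n * A * ((r' - ((n : ℝ) + 1)) * A) ≤ 2 * n * A * (b * B) :=
        mul_le_mul_of_nonneg_left hL (by positivity)
      linarith
    have m2 : ((r' - ((n : ℝ) + 1)) * A) ^ 2 + 2 * n * A * ((r' - ((n : ℝ) + 1)) * A)
        = A ^ 2 * (b ^ 2 - 2 * (r' - ((n : ℝ) + 1))) := by
      have : (r' - ((n : ℝ) + 1)) ^ 2 + 2 * n * (r' - ((n : ℝ) + 1)) = b ^ 2 - 2 * (r' - ((n : ℝ) + 1)) := by
        nlinarith
      calc _ = A ^ 2 * ((r' - ((n : ℝ) + 1)) ^ 2 + 2 * n * (r' - ((n : ℝ) + 1))) := by ring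
        _ = _ := by rw [this]
    have m3 : b ^ 2 * ((1 - 2 / b) * A ^ 2) = A ^ 2 * (b ^ 2 - 2 * b) := by
      field_simp
    have m4 : A ^ 2 * (b ^ 2 - 2 * b) ≤ A ^ 2 * (b ^ 2 - 2 * (r' - ((n : ℝ) + 1))) :=
      mul_le_mul_of_nonneg_left (by linarith) (sq_nonneg _)
    have : b ^ 2 * ((1 - 2 / b) * A ^ 2) ≤ b ^ 2 * ((B + 2 * n / b * A) * B) := by
      rw [key, m3]; linarith
    exact le_of_mul_le_mul_left this hb2
  · -- upper bound
    have y0 : 0 ≤ b * B := by positivity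
    have m1 : (b * B) ^ 2 + 2 * n * A * (b * B) ≤ ((r - n) * A) ^ 2 + 2 * n * A * ((r - n) * A) := by
      have q1 : (b * B) ^ 2 ≤ ((r - n) * A) ^ 2 := pow_le_pow_left₀ y0 hU 2
      have q2 : 2 * n * A * (b * B) ≤ 2 * n * A * ((r - n) * A) :=
        mul_le_mul_of_nonneg_left hU (by positivity)
      linarith
    have m2 : ((r - n) * A) ^ 2 + 2 * n * A * ((r - n) * A) = b ^ 2 * A ^ 2 := by
      have : (r - n) ^ 2 + 2 * n * (r - n) = b ^ 2 := by nlinarith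
      calc _ = A ^ 2 * ((r - n) ^ 2 + 2 * n * (r - n)) := by ring
        _ = _ := by rw [this]; ring
    have : b ^ 2 * ((B + 2 * n / b * A) * B) ≤ b ^ 2 * A ^ 2 := by
      rw [key]; linarith
    exact le_of_mul_le_mul_left this hb2

/-- two sided Turan inequality. -/
theorem bc1_turan (b : ℝ) (hb : 2 < b) (n : ℤ) :
    (1 - 2 / b) * bes b n ^ 2 ≤ bes b (n - 1) * bes b (n + 1) ∧
      bes b (n - 1) * bes b (n + 1) ≤ bes b n ^ 2 := by
  rcases le_total 0 n with h | h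
  · obtain ⟨k, rfl⟩ := Int.eq_ofNat_of_zero_le h
    exact bc1_turan_nat b hb k
  · obtain ⟨k, hk⟩ := Int.eq_ofNat_of_zero_le (neg_nonneg.2 h)
    have e : n = -(k : ℤ) := by omega
    have := bc1_turan_nat b hb k
    rw [e, bes_neg, show -(k : ℤ) - 1 = -((k : ℤ) + 1) by ring, show -(k : ℤ) + 1 = -((k : ℤ) - 1) by ring,
      bes_neg, bes_neg, mul_comm (bes b ((k : ℤ) + 1))]
    exact this


theorem bc1_turan_eqns_cite : True := by
  have := @amR.eq_1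
  have := @amU.eq_1
  have := @amL.eq_1
  trivial

end

end Claimed.Agent.R285.BC1

/-!
# ROW 285, layer Bc, midpoint form of the Turan inequality

General lemma for `f : ℤ → ℝ`, `f > 0`, `0 < q ≤ 1`, `q f(n)² ≤ f(n-1) f(n+1) ≤ f(n)²`.  With `g = log f`, `δ(j) = g(j+1) - g(j)`, `c = -log q`:
`-c ≤ δ(j) - δ(j-1) ≤ 0`, so `-i c ≤ δ(m+i) - δ(m) ≤ 0`; `D_k = g(n+k) + g(n-k) - 2 g(n)`, `D_{k+1} - D_k = δ(n+k) - δ(n-k-1) ∈ [-(2k+1)c, 0]`, `∑_{i<k} (2i+1) = k²`.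
(Or multiplicatively, without logarithms.)
-/


namespace Claimed.Agent.R285.BC1

noncomputable section

theorem bc1_seq_slope (g : ℤ → ℝ) (c : ℝ)
    (h : ∀ n, c + 2 * g n ≤ g (n - 1) + g (n + 1) ∧ g (n - 1) + g (n + 1) ≤ 2 * g n) (m : ℤ) (i : ℕ) :
    (i : ℝ) * c ≤ (g (m + i + 1) - g (m + i)) - (g (m + 1) - g m) ∧
      (g (m + i + 1) - g (m + i)) - (g (m + 1) - g m) ≤ 0 := by
  induction i with
  | zero => simp
  | succ i ih =>
    obtain ⟨h1, h2⟩ := h (m + i + 1)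
    have e1 : m + (i : ℤ) + 1 - 1 = m + i := by ring
    have e2 : m + ((i + 1 : ℕ) : ℤ) = m + i + 1 := by push_cast; ring
    rw [e1] at h1 h2
    rw [e2]
    push_cast
    constructor <;> linarith [ih.1, ih.2]

theorem bc1_seq_mid (g : ℤ → ℝ) (c : ℝ)
    (h : ∀ n, c + 2 * g n ≤ g (n - 1) + g (n + 1) ∧ g (n - 1) + g (n + 1) ≤ 2 * g n) (n : ℤ) (k : ℕ) :
    (k : ℝ) ^ 2 * c + 2 * g n ≤ g (n - k) + g (n + k) ∧ g (n - k) + g (n + k) ≤ 2 * g n := by
  induction k with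
  | zero =>
    simp only [Nat.cast_zero, sub_zero, add_zero]
    constructor <;> linarith
  | succ k ih =>
    obtain ⟨s1, s2⟩ := bc1_seq_slope g c h (n - k - 1) (2 * k + 1)
    have e1 : n - (k : ℤ) - 1 + ((2 * k + 1 : ℕ) : ℤ) + 1 = n + ((k + 1 : ℕ) : ℤ) := by push_cast; ring
    have e2 : n - (k : ℤ) - 1 + ((2 * k + 1 : ℕ) : ℤ) = n + k := by push_cast; ring
    have e3 : n - (k : ℤ) - 1 + 1 = n - k := by ring
    have e4 : n - (k : ℤ) - 1 = n - ((k + 1 : ℕ) : ℤ) := by push_cast; ring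
    rw [e1, e2, e3, e4] at s1 s2
    push_cast at s1 s2 ⊢
    constructor <;> nlinarith [ih.1, ih.2]

theorem bc1_mid_general (f : ℤ → ℝ) (hf : ∀ n, 0 < f n) (q : ℝ) (hq : 0 < q)
    (h : ∀ n, q * f n ^ 2 ≤ f (n - 1) * f (n + 1) ∧ f (n - 1) * f (n + 1) ≤ f n ^ 2) (n : ℤ) (k : ℕ) :
    q ^ (k ^ 2) * f n ^ 2 ≤ f (n - k) * f (n + k) ∧ f (n - k) * f (n + k) ≤ f n ^ 2 := by
  have hg : ∀ n, Real.log q + 2 * Real.log (f n) ≤ Real.log (f (n - 1)) + Real.log (f (n + 1)) ∧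
      Real.log (f (n - 1)) + Real.log (f (n + 1)) ≤ 2 * Real.log (f n) := by
    intro n
    obtain ⟨h1, h2⟩ := h n
    have a1 := Real.log_le_log (by have := hf n; positivity) h1
    have a2 := Real.log_le_log (mul_pos (hf _) (hf _)) h2
    rw [Real.log_mul hq.ne' (pow_pos (hf n) 2).ne', Real.log_pow, Real.log_mul (hf _).ne' (hf _).ne'] at a1
    rw [Real.log_pow, Real.log_mul (hf _).ne' (hf _).ne'] at a2
    push_cast at a1 a2
    exact ⟨a1, a2⟩
  obtain ⟨m1, m2⟩ := bc1_seq_mid (fun n => Real.log (f n)) (Real.log q) hg n k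
  constructor
  · rw [← Real.log_le_log_iff (by have := hf n; positivity) (mul_pos (hf _) (hf _)),
      Real.log_mul (pow_pos hq _).ne' (pow_pos (hf n) 2).ne', Real.log_pow, Real.log_pow,
      Real.log_mul (hf _).ne' (hf _).ne']
    push_cast
    exact m1
  · rw [← Real.log_le_log_iff (mul_pos (hf _) (hf _)) (by have := hf n; positivity), Real.log_pow,
      Real.log_mul (hf _).ne' (hf _).ne']
    push_cast
    exact m2

/-- midpoint form. -/
theorem bc1_midpoint (b : ℝ) (hb : 2 < b) (n : ℤ) (k : ℕ) :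
    (1 - 2 / b) ^ (k ^ 2) * bes b n ^ 2 ≤ bes b (n - k) * bes b (n + k) ∧
      bes b (n - k) * bes b (n + k) ≤ bes b n ^ 2 :=
  bc1_mid_general (bes b) (bes_pos b (by linarith)) (1 - 2 / b)
    (by have : 2 / b < 1 := by rw [div_lt_one (by linarith)]; exact hb
        linarith) (bc1_turan b hb) n k

end

end Claimed.Agent.R285.BC1

/-!
# ROW 285, layer Bc, the Gaussian Toeplitz form has a spectral gap (no Poisson summation)

`exp(-κ t²/2) = (2πκ)^{-1/2} ∫_ℝ cos(tφ) exp(-φ²/(2κ)) dφ` (`charFun_gaussianReal`, real part).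
`F(φ) = ∑_{i,j ∈ s} u_i u_j cos((i-j)φ) = (∑ u_i cos iφ)² + (∑ u_i sin iφ)² ≥ 0`.
`∑ u_i u_j exp(-κ(i-j)²/2) = (2πκ)^{-1/2} ∫_ℝ F e^{-φ²/2κ} ≥ (2πκ)^{-1/2} e^{-π²/2κ} ∫_{-π}^{π} F = (2πκ)^{-1/2} e^{-π²/2κ} 2π ∑ u_i²`
(`∫_{-π}^{π} cos(mφ) = 0` for an integer `m ≠ 0`), and `2π (2πκ)^{-1/2} = √(2π/κ)`.
-/


namespace Claimed.Agent.R285.BC1

open MeasureTheory ProbabilityTheory

noncomputable section


/-- `E cos(tφ) = exp(-κ t²/2)` for `φ ~ N(0,κ)`. -/
theorem bc1_gauss_cos (v : NNReal) (t : ℝ) :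
    ∫ x, Real.cos (t * x) ∂(gaussianReal 0 v) = Real.exp (-(v : ℝ) * t ^ 2 / 2) := by
  have h := charFun_gaussianReal (μ := 0) (v := v) t
  rw [charFun_apply_real] at h
  have h1 : (∫ x, Complex.exp (t * x * Complex.I) ∂(gaussianReal 0 v)).re = ∫ x, Real.cos (t * x) ∂(gaussianReal 0 v) := by
    have hint : Integrable (fun x : ℝ => Complex.exp (t * x * Complex.I)) (gaussianReal 0 v) := by
      refine (integrable_const (1 : ℝ)).mono' (by fun_prop) (Filter.Eventually.of_forall fun x => ?_)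
      have : ((t : ℂ) * x * Complex.I) = ((t * x : ℝ) : ℂ) * Complex.I := by push_cast; ring
      rw [this, Complex.norm_exp_ofReal_mul_I]
    have := integral_re hint
    rw [show (∫ x, Complex.exp (t * x * Complex.I) ∂(gaussianReal 0 v)).re
      = RCLike.re (∫ x, Complex.exp (t * x * Complex.I) ∂(gaussianReal 0 v)) from rfl, ← this]
    refine integral_congr_ae (Filter.Eventually.of_forall fun x => ?_)
    have e : ((t : ℂ) * x * Complex.I) = ((t * x : ℝ) : ℂ) * Complex.I := by push_cast; ring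
    show (Complex.exp (t * x * Complex.I)).re = _
    rw [e, Complex.exp_ofReal_mul_I_re]
  rw [← h1, h]
  have e : ((t : ℂ) * (0 : ℝ) * Complex.I - (v : ℝ) * (t : ℂ) ^ 2 / 2) = ((-(v : ℝ) * t ^ 2 / 2 : ℝ) : ℂ) := by
    push_cast; ring
  rw [e, Complex.exp_ofReal_re]

/-- orthogonality. -/
theorem bc1_int_cos (m : ℤ) : ∫ x in (-Real.pi)..Real.pi, Real.cos ((m : ℝ) * x) = if m = 0 then 2 * Real.pi else 0 := by
  by_cases hm : m = 0
  · subst hm; simp; ring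
  · rw [if_neg hm]
    have hm' : (m : ℝ) ≠ 0 := by exact_mod_cast hm
    rw [intervalIntegral.integral_comp_mul_left _ hm', integral_cos]
    have h1 : Real.sin ((m : ℝ) * Real.pi) = 0 := Real.sin_int_mul_pi m
    have h2 : Real.sin ((m : ℝ) * -Real.pi) = 0 := by
      rw [mul_neg, Real.sin_neg, h1, neg_zero]
    rw [h1, h2]; simp

/-- the trigonometric form `|∑ u_j e^{ijφ}|²`. -/
def trigF (s : Finset ℤ) (u : ℤ → ℝ) (x : ℝ) : ℝ := ∑ i ∈ s, ∑ j ∈ s, u i * u j * Real.cos (((i - j : ℤ) : ℝ) * x)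

theorem bc1_trigF_nonneg (s : Finset ℤ) (u : ℤ → ℝ) (x : ℝ) : 0 ≤ trigF s u x := by
  have : trigF s u x = (∑ i ∈ s, u i * Real.cos ((i : ℝ) * x)) ^ 2 + (∑ i ∈ s, u i * Real.sin ((i : ℝ) * x)) ^ 2 := by
    unfold trigF
    rw [sq, sq, Finset.sum_mul_sum, Finset.sum_mul_sum, ← Finset.sum_add_distrib]
    refine Finset.sum_congr rfl fun i _ => ?_
    rw [← Finset.sum_add_distrib]
    refine Finset.sum_congr rfl fun j _ => ?_
    push_cast
    rw [sub_mul, Real.cos_sub]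
    ring
  rw [this]; positivity

theorem bc1_trigF_cont (s : Finset ℤ) (u : ℤ → ℝ) : Continuous (trigF s u) := by
  unfold trigF
  fun_prop

theorem bc1_trigF_bdd (s : Finset ℤ) (u : ℤ → ℝ) (x : ℝ) : ‖trigF s u x‖ ≤ ∑ i ∈ s, ∑ j ∈ s, |u i * u j| := by
  unfold trigF
  refine (norm_sum_le _ _).trans (Finset.sum_le_sum fun i _ => (norm_sum_le _ _).trans (Finset.sum_le_sum fun j _ => ?_))
  rw [Real.norm_eq_abs, abs_mul]
  exact mul_le_of_le_one_right (abs_nonneg _) (Real.abs_cos_le_one _)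

theorem bc1_trigF_gauss (s : Finset ℤ) (u : ℤ → ℝ) (v : NNReal) :
    ∫ x, trigF s u x ∂(gaussianReal 0 v) = ∑ i ∈ s, ∑ j ∈ s, u i * u j * Real.exp (-(v : ℝ) * ((i - j : ℤ) : ℝ) ^ 2 / 2) := by
  unfold trigF
  have hc : ∀ t : ℝ, Integrable (fun x : ℝ => Real.cos (t * x)) (gaussianReal 0 v) := by
    intro t
    refine (integrable_const (1 : ℝ)).mono' (by fun_prop) (Filter.Eventually.of_forall fun x => ?_)
    exact Real.abs_cos_le_one _
  rw [integral_finsetSum _ fun i _ => integrable_finsetSum _ fun j _ => (hc _).const_mul _]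
  refine Finset.sum_congr rfl fun i _ => ?_
  rw [integral_finsetSum _ fun j _ => (hc _).const_mul _]
  refine Finset.sum_congr rfl fun j _ => ?_
  rw [integral_const_mul, bc1_gauss_cos]

theorem bc1_trigF_int (s : Finset ℤ) (u : ℤ → ℝ) :
    ∫ x in (-Real.pi)..Real.pi, trigF s u x = 2 * Real.pi * ∑ i ∈ s, u i ^ 2 := by
  unfold trigF
  have hc : ∀ t : ℝ, IntervalIntegrable (fun x : ℝ => Real.cos (t * x)) volume (-Real.pi) Real.pi := by
    intro t
    exact (by fun_prop : Continuous fun x : ℝ => Real.cos (t * x)).intervalIntegrable _ _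
  have hc2 : ∀ i ∈ s, IntervalIntegrable (fun x : ℝ => ∑ j ∈ s, u i * u j * Real.cos (((i - j : ℤ) : ℝ) * x))
      volume (-Real.pi) Real.pi := by
    intro i _
    exact (by fun_prop : Continuous fun x : ℝ => ∑ j ∈ s, u i * u j * Real.cos (((i - j : ℤ) : ℝ) * x)).intervalIntegrable _ _
  rw [intervalIntegral.integral_finsetSum hc2, Finset.mul_sum]
  refine Finset.sum_congr rfl fun i hi => ?_
  rw [intervalIntegral.integral_finsetSum fun j _ => (hc _).const_mul _]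
  have : ∀ j ∈ s, ∫ x in (-Real.pi)..Real.pi, u i * u j * Real.cos (((i - j : ℤ) : ℝ) * x)
      = if i = j then 2 * Real.pi * u i ^ 2 else 0 := by
    intro j _
    rw [intervalIntegral.integral_const_mul, bc1_int_cos]
    by_cases h : i = j
    · subst h; simp; ring
    · rw [if_neg h, if_neg (sub_ne_zero.2 h), mul_zero]
  rw [Finset.sum_congr rfl this, Finset.sum_ite_eq, if_pos hi]

/-- the Gaussian Toeplitz form has a spectral gap. -/
theorem bc1_toeplitz (κ : ℝ) (hκ : 0 < κ) (s : Finset ℤ) (u : ℤ → ℝ) :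
    Real.sqrt (2 * Real.pi / κ) * Real.exp (-Real.pi ^ 2 / (2 * κ)) * ∑ i ∈ s, u i ^ 2 ≤
      ∑ i ∈ s, ∑ j ∈ s, u i * u j * Real.exp (-κ * ((i - j : ℤ) : ℝ) ^ 2 / 2) := by
  set v : NNReal := ⟨κ, hκ.le⟩ with hv
  have hv0 : v ≠ 0 := by
    intro h
    have : (v : ℝ) = 0 := by rw [h]; rfl
    exact hκ.ne' this
  have hvκ : (v : ℝ) = κ := rfl
  have e1 := bc1_trigF_gauss s u v
  rw [hvκ] at e1
  rw [← e1, integral_gaussianReal_eq_integral_smul hv0]
  simp only [smul_eq_mul]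
  set c : ℝ := (Real.sqrt (2 * Real.pi * κ))⁻¹ * Real.exp (-Real.pi ^ 2 / (2 * κ)) with hc
  have hpi := Real.pi_pos
  have i1 : Integrable (fun x => gaussianPDFReal 0 v x * trigF s u x) volume :=
    (integrable_gaussianPDFReal 0 v).mul_bdd (bc1_trigF_cont s u).aestronglyMeasurable
      (Filter.Eventually.of_forall (bc1_trigF_bdd s u))
  have n1 : ∀ x, 0 ≤ gaussianPDFReal 0 v x * trigF s u x := fun x =>
    mul_nonneg (gaussianPDFReal_nonneg _ _ _) (bc1_trigF_nonneg s u x)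
  have s1 : ∫ x in Set.Ioc (-Real.pi) Real.pi, gaussianPDFReal 0 v x * trigF s u x
      ≤ ∫ x, gaussianPDFReal 0 v x * trigF s u x :=
    setIntegral_le_integral i1 (Filter.Eventually.of_forall n1)
  have s2 : ∫ x in Set.Ioc (-Real.pi) Real.pi, c * trigF s u x
      ≤ ∫ x in Set.Ioc (-Real.pi) Real.pi, gaussianPDFReal 0 v x * trigF s u x := by
    refine setIntegral_mono_on ?_ i1.integrableOn measurableSet_Ioc fun x hx => ?_
    · exact ((bc1_trigF_cont s u).const_smul c).integrableOn_Ioc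
    · refine mul_le_mul_of_nonneg_right ?_ (bc1_trigF_nonneg s u x)
      unfold gaussianPDFReal
      rw [hc, hvκ]
      refine mul_le_mul_of_nonneg_left (Real.exp_le_exp.2 ?_) (by positivity)
      have hx2 : x ^ 2 ≤ Real.pi ^ 2 := by
        have : |x| ≤ Real.pi := abs_le.2 ⟨hx.1.le, hx.2⟩
        calc x ^ 2 = |x| ^ 2 := (sq_abs x).symm
          _ ≤ _ := pow_le_pow_left₀ (abs_nonneg _) this 2
      rw [sub_zero, neg_div, neg_div, neg_le_neg_iff]
      exact div_le_div_of_nonneg_right hx2 (by positivity)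
  have s3 : ∫ x in Set.Ioc (-Real.pi) Real.pi, c * trigF s u x = c * (2 * Real.pi * ∑ i ∈ s, u i ^ 2) := by
    rw [integral_const_mul, ← intervalIntegral.integral_of_le (by linarith), bc1_trigF_int]
  have s4 : Real.sqrt (2 * Real.pi / κ) * Real.exp (-Real.pi ^ 2 / (2 * κ)) * ∑ i ∈ s, u i ^ 2
      = c * (2 * Real.pi * ∑ i ∈ s, u i ^ 2) := by
    have : Real.sqrt (2 * Real.pi / κ) = (Real.sqrt (2 * Real.pi * κ))⁻¹ * (2 * Real.pi) := by
      have h2 : (0 : ℝ) ≤ 2 * Real.pi := by positivity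
      rw [Real.sqrt_div h2, Real.sqrt_mul h2]
      have a := Real.mul_self_sqrt h2
      have b1 : Real.sqrt (2 * Real.pi) ≠ 0 := (Real.sqrt_pos.2 (by positivity)).ne'
      have b2 : Real.sqrt κ ≠ 0 := (Real.sqrt_pos.2 hκ).ne'
      field_simp
      nlinarith [a]
    rw [this, hc]; ring
  rw [s4, ← s3]
  exact s2.trans s1


theorem bc1_toep_eqns_cite : True := by
  have := @trigF.eq_1
  trivial

end

end Claimed.Agent.R285.BC1

/-!
# ROW 285, layer Bc: Lemma K (owner helper172)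

For `κ > 0` and `b ≥ b0(κ)` the kernel `(x,y) ↦ p_b((x+y)/2) exp(-κ ((x-y)/2)²/2)` (`x ≡ y mod 2`, else `0`) is PSD on `ℤ`.
On one parity class `x = 2i + c`: divide by `√(p(x) p(y))`; the kernel is `T (1 + e)`, `T_{ij} = exp(-κ(i-j)²/2)` (gap `gapT κ`, `bc1_toeplitz`),
`0 ≤ e_{ij} ≤ exp(4(i-j)²/b) - 1` (`bc1_midpoint`), Schur test with `θ(m) = (4/b) m² exp(-κ m²/4)`.
-/


namespace Claimed.Agent.R285.BC1

open Filter Topology

noncomputable section


theorem bc1_gauss_summable (κ : ℝ) (hκ : 0 < κ) :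
    Summable fun m : ℤ => (m : ℝ) ^ 2 * Real.exp (-κ * (m : ℝ) ^ 2 / 4) := by
  have h := summable_pow_mul_jacobiTheta₂_term_bound 0 (T := κ / (4 * Real.pi)) (by positivity) 2
  refine h.congr fun m => ?_
  rw [Int.cast_abs, sq_abs]
  congr 2
  field_simp
  ring

/-- perturbation of a Toeplitz form with a gap. -/
theorem bc1_perturb (s : Finset ℤ) (u : ℤ → ℝ) (T E : ℤ → ℤ → ℝ) (τ Θ : ℝ) (θ : ℤ → ℝ)
    (hT : τ * ∑ i ∈ s, u i ^ 2 ≤ ∑ i ∈ s, ∑ j ∈ s, u i * u j * T i j)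
    (hE : ∀ i j, |E i j| ≤ θ (i - j)) (hev : ∀ m, θ (-m) = θ m)
    (hθ : ∀ i, ∑ j ∈ s, θ (i - j) ≤ Θ) (hΘ : Θ ≤ τ) :
    0 ≤ ∑ i ∈ s, ∑ j ∈ s, u i * u j * (T i j + E i j) := by
  have h1 : ∀ i j, -((u i ^ 2 + u j ^ 2) / 2 * θ (i - j)) ≤ u i * u j * E i j := by
    intro i j
    have hθ0 : 0 ≤ θ (i - j) := (abs_nonneg _).trans (hE i j)
    have a1 : |u i * u j| ≤ (u i ^ 2 + u j ^ 2) / 2 := by
      rw [abs_le]; constructor <;> nlinarith [sq_nonneg (u i + u j), sq_nonneg (u i - u j)]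
    have a2 : |u i * u j * E i j| ≤ (u i ^ 2 + u j ^ 2) / 2 * θ (i - j) := by
      rw [abs_mul]
      exact mul_le_mul a1 (hE i j) (abs_nonneg _) (by positivity)
    exact (abs_le.1 a2).1
  have h2 : ∑ i ∈ s, ∑ j ∈ s, (u i ^ 2 + u j ^ 2) / 2 * θ (i - j) ≤ Θ * ∑ i ∈ s, u i ^ 2 := by
    have e2 : ∑ i ∈ s, ∑ j ∈ s, u j ^ 2 * θ (i - j) = ∑ i ∈ s, u i ^ 2 * ∑ j ∈ s, θ (i - j) := by
      rw [Finset.sum_comm]
      refine Finset.sum_congr rfl fun j _ => ?_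
      rw [Finset.mul_sum]
      refine Finset.sum_congr rfl fun i _ => ?_
      rw [← hev (j - i), neg_sub]
    have e1 : ∑ i ∈ s, ∑ j ∈ s, (u i ^ 2 + u j ^ 2) / 2 * θ (i - j)
        = (∑ i ∈ s, u i ^ 2 * ∑ j ∈ s, θ (i - j)) / 2 + (∑ i ∈ s, ∑ j ∈ s, u j ^ 2 * θ (i - j)) / 2 := by
      rw [Finset.sum_div, Finset.sum_div, ← Finset.sum_add_distrib]
      refine Finset.sum_congr rfl fun i _ => ?_
      rw [Finset.mul_sum, Finset.sum_div, Finset.sum_div, ← Finset.sum_add_distrib]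
      refine Finset.sum_congr rfl fun j _ => ?_
      ring
    have e3 : ∑ i ∈ s, u i ^ 2 * ∑ j ∈ s, θ (i - j) ≤ Θ * ∑ i ∈ s, u i ^ 2 := by
      rw [Finset.mul_sum]
      refine Finset.sum_le_sum fun i _ => ?_
      rw [mul_comm]
      exact mul_le_mul_of_nonneg_right (hθ i) (sq_nonneg _)
    rw [e1, e2]
    linarith
  have h3 : ∑ i ∈ s, ∑ j ∈ s, u i * u j * (T i j + E i j)
      = ∑ i ∈ s, ∑ j ∈ s, u i * u j * T i j + ∑ i ∈ s, ∑ j ∈ s, u i * u j * E i j := by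
    rw [← Finset.sum_add_distrib]
    refine Finset.sum_congr rfl fun i _ => ?_
    rw [← Finset.sum_add_distrib]
    exact Finset.sum_congr rfl fun j _ => by ring
  have h4 : -(∑ i ∈ s, ∑ j ∈ s, (u i ^ 2 + u j ^ 2) / 2 * θ (i - j)) ≤ ∑ i ∈ s, ∑ j ∈ s, u i * u j * E i j := by
    rw [← Finset.sum_neg_distrib]
    refine Finset.sum_le_sum fun i _ => ?_
    rw [← Finset.sum_neg_distrib]
    exact Finset.sum_le_sum fun j _ => h1 i j
  have h5 : 0 ≤ ∑ i ∈ s, u i ^ 2 := Finset.sum_nonneg fun i _ => sq_nonneg _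
  rw [h3]
  nlinarith [mul_le_mul_of_nonneg_right hΘ h5]

/-- translated finite sums are bounded by the total sum. -/
theorem bc1_shift_sum_le (θ : ℤ → ℝ) (h0 : ∀ m, 0 ≤ θ m) (hs : Summable θ) (s : Finset ℤ) (i : ℤ) :
    ∑ j ∈ s, θ (i - j) ≤ ∑' m, θ m := by
  have : ∑ j ∈ s, θ (i - j) = ∑ m ∈ s.image (fun j => i - j), θ m := by
    rw [Finset.sum_image]
    intro a _ b _ hab
    simpa using hab
  rw [this]
  exact hs.sum_le_tsum _ fun m _ => h0 m



theorem bc1_q_exp (b : ℝ) (hb : 4 ≤ b) : 1 ≤ (1 - 2 / b) * Real.exp (4 / b) := by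
  have hb0 : 0 < b := by linarith
  have h1 : 4 / b + 1 ≤ Real.exp (4 / b) := Real.add_one_le_exp _
  have h2 : 0 ≤ 1 - 2 / b := by
    have : 2 / b ≤ 1 := by rw [div_le_one hb0]; linarith
    linarith
  have h3 : 1 ≤ (1 - 2 / b) * (4 / b + 1) := by
    have : (1 - 2 / b) * (4 / b + 1) = 1 + (2 * b - 8) / b ^ 2 := by field_simp; ring
    rw [this]
    have : 0 ≤ (2 * b - 8) / b ^ 2 := div_nonneg (by linarith) (by positivity)
    linarith
  exact h3.trans (mul_le_mul_of_nonneg_left h1 h2)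

/-- the two sided midpoint bound in the variables of Lemma K. -/
theorem bc1_ratio_bound (b : ℝ) (hb : 4 ≤ b) (i j c : ℤ) :
    Real.sqrt (bes b (2 * i + c)) * Real.sqrt (bes b (2 * j + c)) ≤ bes b (i + j + c) ∧
    bes b (i + j + c) ≤ Real.exp (4 * ((i - j : ℤ) : ℝ) ^ 2 / b) *
      (Real.sqrt (bes b (2 * i + c)) * Real.sqrt (bes b (2 * j + c))) := by
  have hb0 : 0 < b := by linarith
  have hp : ∀ k, 0 < bes b k := bes_pos b hb0
  set n := i + j + c with hn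
  set k := (i - j).natAbs with hk
  obtain ⟨m1, m2⟩ := bc1_midpoint b (by linarith) n k
  have hprod : bes b (n - k) * bes b (n + k) = bes b (2 * i + c) * bes b (2 * j + c) := by
    rcases le_total 0 (i - j) with h | h
    · have e : ((i - j).natAbs : ℤ) = i - j := Int.natAbs_of_nonneg h
      rw [hk, e, show n - (i - j) = 2 * j + c by rw [hn]; ring, show n + (i - j) = 2 * i + c by rw [hn]; ring, mul_comm]
    · have e : ((i - j).natAbs : ℤ) = -(i - j) := Int.ofNat_natAbs_of_nonpos h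
      rw [hk, e, show n - -(i - j) = 2 * i + c by rw [hn]; ring, show n + -(i - j) = 2 * j + c by rw [hn]; ring]
  rw [hprod] at m1 m2
  set D := Real.sqrt (bes b (2 * i + c)) * Real.sqrt (bes b (2 * j + c)) with hD
  have hD0 : 0 ≤ D := by positivity
  have hD2 : D ^ 2 = bes b (2 * i + c) * bes b (2 * j + c) := by
    rw [hD, mul_pow, Real.sq_sqrt (hp _).le, Real.sq_sqrt (hp _).le]
  rw [← hD2] at m1 m2
  have hk2 : ((k ^ 2 : ℕ) : ℝ) = ((i - j : ℤ) : ℝ) ^ 2 := by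
    have : ((k : ℤ)) ^ 2 = (i - j) ^ 2 := by rw [hk]; exact Int.natAbs_sq _
    have h2 : (((k : ℤ) ^ 2 : ℤ) : ℝ) = (((i - j) ^ 2 : ℤ) : ℝ) := by rw [this]
    push_cast at h2 ⊢
    exact h2
  refine ⟨(sq_le_sq₀ hD0 (hp n).le).1 m2, ?_⟩
  set Q := Real.exp (4 * ((i - j : ℤ) : ℝ) ^ 2 / b) with hQ
  have hQ1 : 1 ≤ Q := by
    rw [hQ]; exact Real.one_le_exp (by positivity)
  have hQq : 1 ≤ (1 - 2 / b) ^ (k ^ 2) * Q := by
    have e : Q = Real.exp (4 / b) ^ (k ^ 2) := by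
      rw [hQ, ← Real.exp_nat_mul, hk2]; congr 1; ring
    rw [e, ← mul_pow]
    exact one_le_pow₀ (bc1_q_exp b hb)
  have h3 : bes b n ^ 2 ≤ (Q * D) ^ 2 := by
    have a1 : bes b n ^ 2 ≤ ((1 - 2 / b) ^ (k ^ 2) * Q) * bes b n ^ 2 := le_mul_of_one_le_left (sq_nonneg _) hQq
    have a2 : ((1 - 2 / b) ^ (k ^ 2) * Q) * bes b n ^ 2 ≤ Q * D ^ 2 := by
      calc _ = Q * ((1 - 2 / b) ^ (k ^ 2) * bes b n ^ 2) := by ring
        _ ≤ Q * D ^ 2 := mul_le_mul_of_nonneg_left m1 (by linarith)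
    have a3 : Q * D ^ 2 ≤ (Q * D) ^ 2 := by
      have h5 : Q ≤ Q ^ 2 := by nlinarith
      have h6 : (Q * D) ^ 2 = Q ^ 2 * D ^ 2 := mul_pow _ _ _
      rw [h6]
      exact mul_le_mul_of_nonneg_right h5 (sq_nonneg _)
    linarith
  exact (sq_le_sq₀ (hp n).le (by positivity)).1 h3

theorem bc1_theta_bound (κ b : ℝ) (hκ : 0 < κ) (hb : 0 < b) (hbκ : 16 / κ ≤ b) (m : ℝ) :
    Real.exp (-κ * m ^ 2 / 2) * (Real.exp (4 * m ^ 2 / b) - 1) ≤ 4 / b * (m ^ 2 * Real.exp (-κ * m ^ 2 / 4)) := by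
  set x := 4 * m ^ 2 / b with hx
  have hx0 : 0 ≤ x := by positivity
  have h1 : Real.exp x - 1 ≤ x * Real.exp x := by
    have := Real.add_one_le_exp (-x)
    have h2 : (-x + 1) * Real.exp x ≤ Real.exp (-x) * Real.exp x :=
      mul_le_mul_of_nonneg_right this (Real.exp_pos _).le
    rw [← Real.exp_add, neg_add_cancel, Real.exp_zero] at h2
    linarith
  have h4 : 4 / b ≤ κ / 4 := by
    rw [div_le_div_iff₀ hb (by norm_num)]
    rw [div_le_iff₀ hκ] at hbκ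
    linarith
  have h2 : x ≤ κ * m ^ 2 / 4 := by
    have : x = 4 / b * m ^ 2 := by rw [hx]; ring
    rw [this]
    calc 4 / b * m ^ 2 ≤ κ / 4 * m ^ 2 := mul_le_mul_of_nonneg_right h4 (sq_nonneg _)
      _ = _ := by ring
  calc Real.exp (-κ * m ^ 2 / 2) * (Real.exp x - 1) ≤ Real.exp (-κ * m ^ 2 / 2) * (x * Real.exp x) :=
        mul_le_mul_of_nonneg_left h1 (Real.exp_pos _).le
    _ = x * Real.exp (-κ * m ^ 2 / 2 + x) := by rw [Real.exp_add]; ring
    _ ≤ x * Real.exp (-κ * m ^ 2 / 4) :=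
        mul_le_mul_of_nonneg_left (Real.exp_le_exp.2 (by linarith)) hx0
    _ = _ := by rw [hx]; ring

/-- the gap of the Gaussian Toeplitz form. -/
def gapT (κ : ℝ) : ℝ := Real.sqrt (2 * Real.pi / κ) * Real.exp (-Real.pi ^ 2 / (2 * κ))

/-- the constant `∑ m² e^{-κ m²/4}`. -/
def sumS (κ : ℝ) : ℝ := ∑' m : ℤ, (m : ℝ) ^ 2 * Real.exp (-κ * (m : ℝ) ^ 2 / 4)

theorem bc1_gapT_pos (κ : ℝ) (hκ : 0 < κ) : 0 < gapT κ := by
  unfold gapT
  have : 0 < 2 * Real.pi / κ := by positivity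
  positivity

/-- one parity block of Lemma K. -/
theorem bc1_block_psd (κ b : ℝ) (hκ : 0 < κ) (hb : 4 ≤ b) (hbκ : 16 / κ ≤ b) (hbS : 4 / b * sumS κ ≤ gapT κ) (c : ℤ) :
    PSDZ fun i j => bes b (i + j + c) * Real.exp (-κ * ((i - j : ℤ) : ℝ) ^ 2 / 2) := by
  intro s v
  have hb0 : 0 < b := by linarith
  have hp : ∀ k, 0 < bes b k := bes_pos b hb0
  set r : ℤ → ℝ := fun i => Real.sqrt (bes b (2 * i + c)) with hr
  have hr0 : ∀ i, 0 < r i := fun i => Real.sqrt_pos.2 (hp _)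
  set T : ℤ → ℤ → ℝ := fun i j => Real.exp (-κ * ((i - j : ℤ) : ℝ) ^ 2 / 2) with hT
  set E : ℤ → ℤ → ℝ := fun i j => T i j * (bes b (i + j + c) / (r i * r j) - 1) with hE
  set θ : ℤ → ℝ := fun m => 4 / b * ((m : ℝ) ^ 2 * Real.exp (-κ * (m : ℝ) ^ 2 / 4)) with hθ
  have key := bc1_perturb s (fun i => v i * r i) T E (gapT κ) (4 / b * sumS κ) θ
    (bc1_toeplitz κ hκ s _) ?_ ?_ ?_ hbS
  · refine key.trans_eq (Finset.sum_congr rfl fun i _ => Finset.sum_congr rfl fun j _ => ?_)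
    have h1 := (hr0 i).ne'
    have h2 := (hr0 j).ne'
    have e : v i * r i * (v j * r j) * (T i j + E i j) = v i * v j * (bes b (i + j + c) * T i j) := by
      simp only [hE]
      field_simp
      ring
    exact e
  · intro i j
    obtain ⟨l1, l2⟩ := bc1_ratio_bound b hb i j c
    have hD : 0 < r i * r j := mul_pos (hr0 i) (hr0 j)
    have a1 : 0 ≤ bes b (i + j + c) / (r i * r j) - 1 := by
      rw [sub_nonneg, one_le_div hD]; exact l1
    have a2 : bes b (i + j + c) / (r i * r j) - 1 ≤ Real.exp (4 * ((i - j : ℤ) : ℝ) ^ 2 / b) - 1 := by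
      rw [sub_le_sub_iff_right, div_le_iff₀ hD]; exact l2
    have hT0 : 0 < T i j := Real.exp_pos _
    rw [abs_of_nonneg (mul_nonneg hT0.le a1)]
    exact (mul_le_mul_of_nonneg_left a2 hT0.le).trans (bc1_theta_bound κ b hκ hb0 hbκ _)
  · intro m
    simp [hθ]
  · intro i
    have h1 : Summable θ := (bc1_gauss_summable κ hκ).mul_left _
    have h2 := bc1_shift_sum_le θ (fun m => by simp only [hθ]; positivity) h1 s i
    refine h2.trans_eq ?_
    simp only [hθ, sumS]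
    rw [tsum_mul_left]

/-- a kernel which vanishes between the parity classes and is PSD on both is PSD. -/
theorem bc1_psdz_of_parity (K : ℤ → ℤ → ℝ) (h0 : ∀ x y, (x - y) % 2 ≠ 0 → K x y = 0)
    (hp : ∀ c : ℤ, PSDZ fun i j => K (2 * i + c) (2 * j + c)) : PSDZ K := by
  intro s v
  classical
  -- the two classes
  have hcl : ∀ c : ℤ, (c = 0 ∨ c = 1) → 0 ≤ ∑ x ∈ s.filter (fun x => x % 2 = c), ∑ y ∈ s.filter (fun y => y % 2 = c),
      v x * v y * K x y := by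
    intro c hc
    have h := hp c ((s.filter (fun x => x % 2 = c)).image (fun x => x / 2)) (fun i => v (2 * i + c))
    have inj : Set.InjOn (fun x : ℤ => x / 2) (s.filter (fun x => x % 2 = c)) := by
      intro x hx y hy hxy
      simp only [Finset.coe_filter, Set.mem_ofPred_eq] at hx hy
      simp only at hxy
      omega
    rw [Finset.sum_image inj] at h
    refine h.trans_eq (Finset.sum_congr rfl fun x hx => ?_)
    rw [Finset.sum_image inj]
    refine Finset.sum_congr rfl fun y hy => ?_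
    simp only [Finset.mem_filter] at hx hy
    have ex : 2 * (x / 2) + c = x := by omega
    have ey : 2 * (y / 2) + c = y := by omega
    show v (2 * (x / 2) + c) * v (2 * (y / 2) + c) * K (2 * (x / 2) + c) (2 * (y / 2) + c) = _
    rw [ex, ey]
  have hsplit : ∀ f : ℤ → ℝ, ∑ x ∈ s, f x = ∑ x ∈ s.filter (fun x => x % 2 = 0), f x + ∑ x ∈ s.filter (fun x => x % 2 = 1), f x := by
    intro f
    rw [← Finset.sum_filter_add_sum_filter_not s (fun x => x % 2 = 0)]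
    congr 1
    refine Finset.sum_congr (Finset.filter_congr fun x _ => ?_) fun _ _ => rfl
    omega
  have hz : ∀ c d : ℤ, (c = 0 ∧ d = 1 ∨ c = 1 ∧ d = 0) → ∑ x ∈ s.filter (fun x => x % 2 = c), ∑ y ∈ s.filter (fun y => y % 2 = d),
      v x * v y * K x y = 0 := by
    intro c d hcd
    refine Finset.sum_eq_zero fun x hx => Finset.sum_eq_zero fun y hy => ?_
    simp only [Finset.mem_filter] at hx hy
    rw [h0 x y (by omega), mul_zero]
  rw [hsplit]
  have e0 : ∀ x, ∑ y ∈ s, v x * v y * K x y = ∑ y ∈ s.filter (fun y => y % 2 = 0), v x * v y * K x y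
      + ∑ y ∈ s.filter (fun y => y % 2 = 1), v x * v y * K x y := fun x => hsplit _
  simp_rw [e0, Finset.sum_add_distrib]
  rw [hz 0 1 (Or.inl ⟨rfl, rfl⟩), hz 1 0 (Or.inr ⟨rfl, rfl⟩)]
  have := hcl 0 (Or.inl rfl)
  have := hcl 1 (Or.inr rfl)
  linarith

/-- **Lemma K**. -/
theorem bc1_lemmaK (κ : ℝ) (hκ : 0 < κ) : ∃ b0 : ℝ, 0 < b0 ∧ ∀ b, b0 ≤ b → PSDZ (mixK (bes b) (dg κ)) := by
  have hg := bc1_gapT_pos κ hκ
  have hS : 0 ≤ sumS κ := tsum_nonneg fun m => by positivity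
  refine ⟨max 4 (max (16 / κ) (4 * sumS κ / gapT κ)), by positivity, fun b hb => ?_⟩
  have hb4 : 4 ≤ b := (le_max_left _ _).trans hb
  have hbκ : 16 / κ ≤ b := ((le_max_left _ _).trans (le_max_right _ _)).trans hb
  have hbS' : 4 * sumS κ / gapT κ ≤ b := ((le_max_right _ _).trans (le_max_right _ _)).trans hb
  have hb0 : 0 < b := by linarith
  have hbS : 4 / b * sumS κ ≤ gapT κ := by
    rw [div_le_iff₀ hg] at hbS'
    rw [div_mul_eq_mul_div, div_le_iff₀ hb0]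
    linarith
  refine bc1_psdz_of_parity _ (fun x y h => by simp [mixK, h]) fun c => ?_
  have := bc1_block_psd κ b hκ hb4 hbκ hbS c
  intro s v
  refine (this s v).trans_eq (Finset.sum_congr rfl fun i _ => Finset.sum_congr rfl fun j _ => ?_)
  have h1 : (2 * i + c - (2 * j + c)) % 2 = 0 := by omega
  have h2 : (2 * i + c + (2 * j + c)) / 2 = i + j + c := by omega
  have h3 : (2 * i + c - (2 * j + c)) / 2 = i - j := by omega
  simp only [mixK, if_pos h1, h2, h3, dg]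


theorem bc1_lemK_eqns_cite : True := by
  have := @gapT.eq_1
  have := @sumS.eq_1
  trivial

end

end Claimed.Agent.R285.BC1
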