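import Claimed.Agent.R285.Defs

/-!
# ROW 285, layer Bc (`b_c < oo`), definitions (owner helper172)

Height laws with a general bond weight, the PSD criterion, the discrete Gaussian torus.
Plan, proofs on paper and K1: header of `R285/Read/BC1.lean`.
-/

set_option autoImplicit false

namespace Claimed.Agent.R285.BC1

open MeasureTheory Filter Topology Claims.C0459

noncomputable section

/-- weight of a height for a general bond weight `W`. -/
def wtW (G : HGraph) (W : ℤ → ℝ) (h : G.V → ℤ) : ℝ := ∏ e, W (h (G.tgt e) - h (G.src e))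

/-- unnormalised integral, pins `P`. -/
def ZW (G : HGraph) (W : ℤ → ℝ) (P : Set G.V) (F : (G.V → ℝ) → ℝ) : ℝ :=
  ∑' h : G.Conf P, F (fun v => 2 * Real.pi * (h.1 v : ℝ)) * wtW G W h.1

def ExW (G : HGraph) (W : ℤ → ℝ) (P : Set G.V) (F : (G.V → ℝ) → ℝ) : ℝ :=
  ZW G W P F / ZW G W P fun _ => 1

def VrW (G : HGraph) (W : ℤ → ℝ) (P : Set G.V) (X : (G.V → ℝ) → ℝ) : ℝ :=
  ExW G W P (fun h => X h ^ 2) - ExW G W P X ^ 2

/-- the discrete Gaussian bond weight of precision `κ` (in integer units). -/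
def dg (κ : ℝ) (k : ℤ) : ℝ := Real.exp (-κ * (k : ℝ) ^ 2 / 2)

/-- bridge to `Top.lean`. -/
theorem Zs_eq_ZW (G : HGraph) (b : ℝ) (P : Set G.V) (F : (G.V → ℝ) → ℝ) :
    G.Zs b P 0 0 F = ZW G (bes b) P F := by
  simp [HGraph.Zs, ZW, HGraph.wt, wtW]

theorem Vr_eq_VrW (G : HGraph) (b : ℝ) (P : Set G.V) (X : (G.V → ℝ) → ℝ) :
    G.Vr b P X = VrW G (bes b) P X := by
  simp [HGraph.Vr, VrW, HGraph.Ex, ExW, Zs_eq_ZW]

/-- positive semidefinite kernels on `ℤ` (finite sections). -/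
def PSDZ (K : ℤ → ℤ → ℝ) : Prop :=
  ∀ (s : Finset ℤ) (v : ℤ → ℝ), 0 ≤ ∑ x ∈ s, ∑ y ∈ s, v x * v y * K x y

/-- the mixed doubled weight `W₁(h) W₂(h')` in the variables `x = h + h'`, `y = h - h'`. -/
def mixK (W₁ W₂ : ℤ → ℝ) (x y : ℤ) : ℝ :=
  if (x - y) % 2 = 0 then W₁ ((x + y) / 2) * W₂ ((x - y) / 2) else 0

/-- every vertex is joined to a pin by a path of bonds. -/
def Anchored (G : HGraph) (P : Set G.V) : Prop :=
  ∀ S : Set G.V, P ⊆ S → (∀ e, G.src e ∈ S ↔ G.tgt e ∈ S) → S = Set.univ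

/-- `Var H_n` in the discrete Gaussian torus law of precision `κ`; same test as `torVar`. -/
def dgTorVar (κ : ℝ) (n : ℕ) : ℝ :=
  if hn : n = 0 then 0 else
    haveI : NeZero n := ⟨hn⟩
    VrW (torus n) (dg κ) {((0 : ZMod n), (0 : ZMod n))} fun h =>
      (n : ℝ)⁻¹ ^ 2 * ∑ v : ZMod n × ZMod n, h v * Real.cos (2 * Real.pi * (v.1.val : ℝ) / n)

theorem bc1_defs_eqns_cite : True := by
  have := @wtW.eq_1
  have := @ZW.eq_1
  have := @ExW.eq_1
  have := @VrW.eq_1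
  have := @dg.eq_1
  have := @PSDZ.eq_1
  have := @mixK.eq_1
  have := @Anchored.eq_1
  have := @dgTorVar.eq_1
  trivial

end

end Claimed.Agent.R285.BC1
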